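import Vale.Agent.P216.V670.Push
import Vale.Agent.P216.V609.NPol

/-!
# P216-V, F-COL: colimits of polynomial extensions

`IsCol.pol`: `D [b]` of a colimit is the colimit of the `D i [b]`; the same for `V651.pol`.
-/

open Polynomial

namespace Vale.Agent.P216.V670.IsCol

open V609

variable {k : Type*} [Field k] {ι : Type*} [Preorder ι] {W : ι → Type*} [∀ i, Ring (W i)]
  [∀ i, Algebra k (W i)] {D : ∀ i, NDga k (W i)} {r : ∀ i j, i ≤ j → NDga.Hom (D i) (D j)}
  {G : Type*} [Ring G] [Algebra k G] {GD : NDga k G} {γ : ∀ i, NDga.Hom (D i) GD}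

/-- **`IsCol` for polynomials.** -/
theorem pol (H : IsCol D r GD γ) (rr : ∀ i j l h h' w, (r j l h').f ((r i j h).f w) =
      (r i l (h.trans h')).f w) {m : ℕ} (hm : Even m) (h2 : (2 : k) ≠ 0)
    {y : ∀ i, W i} (hy : ∀ i, y i ∈ (D i).deg (m + 1)) (hdy : ∀ i, (D i).d (y i) = 0)
    (hyc : ∀ i, ∀ b, y i * b = (D i).sg b * y i)
    {yG : G} (hyG : yG ∈ GD.deg (m + 1)) (hdyG : GD.d yG = 0) (hycG : ∀ b, yG * b = GD.sg b * yG)
    (hr : ∀ i j h, (r i j h).f (y i) = y j) (hγ : ∀ i, (γ i).f (y i) = yG) :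
    IsCol (fun i => (D i).pol hm h2 (hy i) (hdy i) (hyc i))
      (fun i j h => (r i j h).polMap hm h2 (hy i) (hdy i) (hyc i) (hy j) (hdy j) (hyc j)
        (hr i j h))
      (GD.pol hm h2 hyG hdyG hycG)
      (fun i => (γ i).polMap hm h2 (hy i) (hdy i) (hyc i) hyG hdyG hycG (hγ i)) where
  res i j h w := by
    ext n
    rw [NDga.Hom.polMap_coeff, NDga.Hom.polMap_coeff, NDga.Hom.polMap_coeff, H.res]
  surj := by
    intro n z hz i₀
    have key : ∀ N : ℕ, ∀ z ∈ (GD.pol hm h2 hyG hdyG hycG).deg n, (∀ l, N ≤ l → z.coeff l = 0) →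
        ∃ i, i₀ ≤ i ∧ ∃ w ∈ ((D i).pol hm h2 (hy i) (hdy i) (hyc i)).deg n,
          ((γ i).polMap hm h2 (hy i) (hdy i) (hyc i) hyG hdyG hycG (hγ i)).f w = z := by
      intro N
      induction N with
      | zero =>
        intro z _ h0
        refine ⟨i₀, le_rfl, 0, zero_mem _, ?_⟩
        rw [map_zero]
        ext l
        rw [h0 l (Nat.zero_le _), coeff_zero]
      | succ N ih =>
        intro z hz h0
        have hz' : ∀ l, z.coeff l ∈ GD.degS (l * m) n := hz
        obtain ⟨i, hi, w, hw, h1⟩ := ih (z - monomial N (z.coeff N))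
          (sub_mem hz (GD.monomial_mem (hz' N))) (fun l hl => by
            rw [coeff_sub, coeff_monomial]
            split_ifs with h
            · rw [h, sub_self]
            · rw [h0 l (by omega), sub_zero])
        obtain ⟨j, hj, w', hw', h3⟩ : ∃ j, i ≤ j ∧ ∃ w' ∈ (D j).degS (N * m) n,
            (γ j).f w' = z.coeff N := by
          rcases GD.mem_degS (hz' N) with h | ⟨p, h, h4⟩
          · exact ⟨i, le_rfl, 0, zero_mem _, by rw [map_zero, h]⟩
          · obtain ⟨j, hj, w', hw', h5⟩ := H.surj h4 i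
            exact ⟨j, hj, w', (D j).degS_of h hw', h5⟩
        refine ⟨j, hi.trans hj, ((r i j hj).polMap hm h2 (hy i) (hdy i) (hyc i) (hy j) (hdy j)
          (hyc j) (hr i j hj)).f w + monomial N w', add_mem
            (((r i j hj).polMap hm h2 (hy i) (hdy i) (hyc i) (hy j) (hdy j) (hyc j)
              (hr i j hj)).deg hw) ((D j).monomial_mem hw'), ?_⟩
        ext l
        have h6 := congrArg (fun p => coeff p l) h1
        simp only [NDga.Hom.polMap_coeff, coeff_sub, coeff_monomial] at h6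
        rw [NDga.Hom.polMap_coeff, coeff_add, map_add, NDga.Hom.polMap_coeff, H.res, h6,
          coeff_monomial]
        split_ifs with h7
        · subst h7
          rw [h3, sub_add_cancel]
        · rw [map_zero, sub_zero, add_zero]
    exact key (z.natDegree + 1) z hz fun l hl => coeff_eq_zero_of_natDegree_lt (by omega)
  eq_zero := by
    intro i w hw
    have hw' : ∀ l, (γ i).f (w.coeff l) = 0 := fun l => by
      rw [← NDga.Hom.polMap_coeff (γ i) hm h2 (hy i) (hdy i) (hyc i) hyG hdyG hycG (hγ i), hw,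
        coeff_zero]
    have key : ∀ N : ℕ, ∃ j, ∃ h : i ≤ j, ∀ l < N, (r i j h).f (w.coeff l) = 0 := by
      intro N
      induction N with
      | zero => exact ⟨i, le_rfl, fun l hl => absurd hl (Nat.not_lt_zero l)⟩
      | succ N ih =>
        obtain ⟨j, h, h3⟩ := ih
        obtain ⟨j', h', h4⟩ := H.eq_zero (i := j) (w := (r i j h).f (w.coeff N)) (by
          rw [H.res, hw'])
        refine ⟨j', h.trans h', fun l hl => ?_⟩
        rcases Nat.lt_succ_iff_lt_or_eq.1 hl with h5 | rfl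
        · rw [← rr i j j' h h', h3 l h5, map_zero]
        · rw [← rr i j j' h h', h4]
    obtain ⟨j, h, h3⟩ := key (w.natDegree + 1)
    refine ⟨j, h, ?_⟩
    ext l
    rw [NDga.Hom.polMap_coeff, coeff_zero]
    by_cases hl : l < w.natDegree + 1
    · exact h3 l hl
    · rw [coeff_eq_zero_of_natDegree_lt (by omega), map_zero]

theorem pol_rr (rr : ∀ i j l h h' w, (r j l h').f ((r i j h).f w) =
      (r i l (h.trans h')).f w) {m : ℕ} (hm : Even m) (h2 : (2 : k) ≠ 0)
    {y : ∀ i, W i} (hy : ∀ i, y i ∈ (D i).deg (m + 1)) (hdy : ∀ i, (D i).d (y i) = 0)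
    (hyc : ∀ i, ∀ b, y i * b = (D i).sg b * y i) (hr : ∀ i j h, (r i j h).f (y i) = y j)
    (i j l : ι) (h : i ≤ j) (h' : j ≤ l) (w : (W i)[X]) :
    ((r j l h').polMap hm h2 (hy j) (hdy j) (hyc j) (hy l) (hdy l) (hyc l) (hr j l h')).f
      (((r i j h).polMap hm h2 (hy i) (hdy i) (hyc i) (hy j) (hdy j) (hyc j) (hr i j h)).f w) =
      ((r i l (h.trans h')).polMap hm h2 (hy i) (hdy i) (hyc i) (hy l) (hdy l) (hyc l)
        (hr i l (h.trans h'))).f w := by
  ext n
  rw [NDga.Hom.polMap_coeff, NDga.Hom.polMap_coeff, NDga.Hom.polMap_coeff, rr]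

end Vale.Agent.P216.V670.IsCol

namespace Vale.Agent.P216.V921

open V609 V670

section

variable {k : Type*} [Field k] {A : Type*} [Ring A] [Algebra k A]

theorem toN_degS (C : Cdga k A) (l n : ℕ) : C.toN.degS l n = C.degS l n := rfl

theorem toN_central (C : Cdga k A) {m : ℕ} (hm : Even m) {y : A} (hy : y ∈ C.deg (m + 1))
    (b : A) : y * b = C.toN.sg b * y := C.comm_odd hy hm.add_one b

/-- the two polynomial extensions are the same -/
theorem toN_pol (C : Cdga k A) {m : ℕ} (hm : Even m) (h2 : (2 : k) ≠ 0) {y : A}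
    (hy : y ∈ C.deg (m + 1)) (hdy : C.d y = 0) : (V651.pol C hm h2 hy hdy).toN =
      C.toN.pol hm h2 hy hdy (toN_central C hm hy) := rfl

end

variable {k : Type*} [Field k] {ι : Type*} [Preorder ι] {W : ι → Type*} [∀ i, Ring (W i)]
  [∀ i, Algebra k (W i)] {C : ∀ i, Cdga k (W i)} {r : ∀ i j, i ≤ j → Cdga.Hom (C i) (C j)}
  {G : Type*} [Ring G] [Algebra k G] {GC : Cdga k G} {γ : ∀ i, Cdga.Hom (C i) GC}

/-- **`IsCol` for `V651.pol`.** -/
theorem isCol_pol (H : IsCol (fun i => (C i).toN) (fun i j h => (r i j h).toN) GC.toN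
      fun i => (γ i).toN)
    (rr : ∀ i j l h h' w, (r j l h').f ((r i j h).f w) = (r i l (h.trans h')).f w)
    {m : ℕ} (hm : Even m) (h2 : (2 : k) ≠ 0)
    {y : ∀ i, W i} (hy : ∀ i, y i ∈ (C i).deg (m + 1)) (hdy : ∀ i, (C i).d (y i) = 0)
    {yG : G} (hyG : yG ∈ GC.deg (m + 1)) (hdyG : GC.d yG = 0)
    (hr : ∀ i j h, (r i j h).f (y i) = y j) (hγ : ∀ i, (γ i).f (y i) = yG) :
    IsCol (fun i => (V651.pol (C i) hm h2 (hy i) (hdy i)).toN)
      (fun i j h => (V651.polMap (r i j h) hm h2 (hy i) (hdy i) (hy j) (hdy j) (hr i j h)).toN)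
      (V651.pol GC hm h2 hyG hdyG).toN
      (fun i => (V651.polMap (γ i) hm h2 (hy i) (hdy i) hyG hdyG (hγ i)).toN) :=
  IsCol.pol H rr hm h2 hy hdy (fun i => toN_central (C i) hm (hy i)) hyG hdyG
    (toN_central GC hm hyG) hr hγ

end Vale.Agent.P216.V921
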