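import Vale.Agent.P216.V754.Col
import Vale.Agent.P216.H929V.HD

/-!
# P216-V, F-COL: the instances

`colGA`: the germs of forms are the direct limit of the forms at the scales. `colHD`: the same for
the hybrid algebras. `IsCol.sub`: reindexing to `{i // i₀ ≤ i}`.
-/

set_option linter.unusedSectionVars false

namespace Vale.Agent.P216.V921

open Vale.Agent.P216.V609 Vale.Agent.P216.V754 Vale.Agent.P216.H285V Vale.Agent.P216.H929V
open Vale.Agent.P231.Fm Vale.Agent.P231.WA Vale.Agent.P216.V1 Vale.Agent.P216.PS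

universe u

section sub

variable {k : Type*} [Field k] {ι : Type*} [Preorder ι] {A : ι → Type*} [∀ i, Ring (A i)]
  [∀ i, Algebra k (A i)] {B : Type*} [Ring B] [Algebra k B]

/-- **reindexing** -/
theorem isCol_sub {D : ∀ i, NDga k (A i)} {f : ∀ i j, i ≤ j → NDga.Hom (D i) (D j)}
    {G : NDga k B} {g : ∀ i, NDga.Hom (D i) G} (H : IsCol D f G g) (i₀ : ι) :
    IsCol (fun i : {i : ι // i₀ ≤ i} => D i.1) (fun i j h => f i.1 j.1 h) G
      (fun i => g i.1) where
  comp i j h a := H.comp i.1 j.1 h a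
  ff i j l h h' a := H.ff i.1 j.1 l.1 h h' a
  surj i _ _ hz := by
    obtain ⟨j, hj, a, ha, h⟩ := H.surj i.1 hz
    exact ⟨⟨j, i.2.trans hj⟩, hj, a, ha, h⟩
  inj i a h := by
    obtain ⟨j, hj, h1⟩ := H.inj i.1 a h
    exact ⟨⟨j, i.2.trans hj⟩, hj, h1⟩

theorem ccol_sub {C : ∀ i, Cdga k (A i)} {f : ∀ i j, i ≤ j → Cdga.Hom (C i) (C j)}
    {G : Cdga k B} {g : ∀ i, Cdga.Hom (C i) G} (H : CCol C f G g) (i₀ : ι) :
    CCol (fun i : {i : ι // i₀ ≤ i} => C i.1) (fun i j h => f i.1 j.1 h) G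
      (fun i => g i.1) := isCol_sub H i₀

instance sub_nonempty (i₀ : ι) : Nonempty {i : ι // i₀ ≤ i} := ⟨⟨i₀, le_rfl⟩⟩

instance sub_directed [IsDirectedOrder ι] (i₀ : ι) : IsDirectedOrder {i : ι // i₀ ≤ i} :=
  ⟨fun a b => by
    obtain ⟨c, h1, h2⟩ := directed_of (· ≤ ·) a.1 b.1
    exact ⟨⟨c, a.2.trans h1⟩, h1, h2⟩⟩

end sub

section sys

variable {k : Type} [Field k] {ι : Type} [Preorder ι] [IsDirectedOrder ι] [Nonempty ι]
  {G : ι → Type u} [∀ i, Ring (G i)] [∀ i, Algebra k (G i)]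

theorem sys_ccol (S : H285V.Sys k G) : CCol S.C S.f S.cdga S.ofHom where
  comp i j h a := S.of_map h a
  ff i j l h h' a := S.map_map i j l h h' a
  surj i m z hz := by
    obtain ⟨j, x, hx, rfl⟩ := hz
    obtain ⟨l, hi, hj⟩ := directed_of (· ≤ ·) i j
    exact ⟨l, hi, S.map j l hj x, (S.f j l hj).deg hx, S.of_map hj x⟩
  inj i a h := by
    obtain ⟨l, hi, h1⟩ := S.of_eq_zero.1 h
    exact ⟨l, hi, h1⟩

theorem sysN_isCol (S : SysN k G) : IsCol S.C S.f S.ndga S.ofHom where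
  comp i j h a := S.of_map h a
  ff i j l h h' a := S.map_map i j l h h' a
  surj i m z hz := by
    obtain ⟨j, x, hx, rfl⟩ := hz
    obtain ⟨l, hi, hj⟩ := directed_of (· ≤ ·) i j
    exact ⟨l, hi, S.map j l hj x, (S.f j l hj).deg hx, S.of_map hj x⟩
  inj i a h := by
    obtain ⟨l, hi, h1⟩ := S.of_eq_zero.1 h
    exact ⟨l, hi, h1⟩

end sys

section inst

variable {E M N : Type} [PseudoMetricSpace E] [PseudoMetricSpace M] [PseudoMetricSpace N]

/-- the germs of a family of diffeologies -/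
theorem colF {P : Type} (F : Fam P) : CCol (fun i : Sc => fC (F.D i.v))
    (fun _ _ h => fHom id (F.mono (Sc.le_iff.1 h))) F.cdga (fun i => F.sys.ofHom i) :=
  sys_ccol F.sys

/-- **`GA X` is the limit of the forms on the small measures** -/
theorem colGA (X : Set E) : CCol (fun i : Sc => fC (DM X i.v))
    (fun _ _ h => fHom id ((vr X).mono (Sc.le_iff.1 h))) (vr X).cdga
    (fun i => (vr X).sys.ofHom i) := sys_ccol (vr X).sys

/-- **the hybrid algebras** -/
theorem colHD (π : E → N) (ρ : M → N) (A : Set M) (X : Set E) :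
    IsCol (fun i : Sc => hN π ρ A X i.v) (fun _ _ h => resD (Sc.le_iff.1 h)) (hD π ρ A X)
      (fun i => (hsys π ρ A X).ofHom i) := sysN_isCol (hsys π ρ A X)

end inst

end Vale.Agent.P216.V921
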