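import Vale.Agent.P216.V609.Cdga

/-!
# P216-V, (F): quasi-isomorphisms in a range of degrees

`Qiso φ m`: the morphism `φ` is bijective on `H^q` for `q ≤ m` and injective for `q = m + 1`.
It is stable under `A ↦ A ⟨e⟩`; and `A ⟨e⟩ → A / (x)` is a quasi-isomorphism if `x = d e` is not a
zero divisor.
-/

namespace Vale.Agent.P216.V921

open V609

variable {k : Type*} [Field k] {A A' A'' : Type*} [Ring A] [Algebra k A] [Ring A'] [Algebra k A']
  [Ring A''] [Algebra k A''] {C : Cdga k A} {C' : Cdga k A'} {C'' : Cdga k A''}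

theorem memZ {C : Cdga k A} {n : ℕ} {a : A} : a ∈ C.Z n ↔ a ∈ C.deg n ∧ C.d a = 0 := Iff.rfl

theorem memB {C : Cdga k A} {n : ℕ} {a : A} : a ∈ C.B n ↔ ∃ b ∈ C.degS 1 n, C.d b = a := by
  cases n with
  | zero =>
    constructor
    · intro h
      have h0 : a = 0 := h
      exact ⟨0, zero_mem _, by rw [map_zero, h0]⟩
    · rintro ⟨b, hb, rfl⟩
      rcases C.mem_degS hb with h | ⟨j, hj, -⟩
      · rw [h, map_zero]; exact zero_mem _
      · omega
  | succ n =>
    rw [C.mem_B_succ]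
    constructor
    · rintro ⟨b, hb, h⟩
      exact ⟨b, C.degS_of rfl hb, h⟩
    · rintro ⟨b, hb, h⟩
      rcases C.mem_degS hb with h1 | ⟨j, hj, h1⟩
      · exact ⟨0, zero_mem _, by rw [← h, h1]⟩
      · obtain rfl : n = j := by omega
        exact ⟨b, h1, h⟩

theorem d_mem_B {n : ℕ} {a : A} (h : a ∈ C.deg n) : C.d a ∈ C.B (n + 1) := ⟨a, h, rfl⟩

/-- `φ` is bijective on `H^q` for `q ≤ m` and injective for `q = m + 1`. -/
structure Qiso (φ : Cdga.Hom C C') (m : ℕ) : Prop where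
  inj : ∀ q, q ≤ m + 1 → ∀ z ∈ C.Z q, φ.f z ∈ C'.B q → z ∈ C.B q
  surj : ∀ q, q ≤ m → ∀ z' ∈ C'.Z q, ∃ z ∈ C.Z q, z' - φ.f z ∈ C'.B q

theorem Qiso.mono {φ : Cdga.Hom C C'} {m m' : ℕ} (h : Qiso φ m) (hm : m' ≤ m) : Qiso φ m' :=
  ⟨fun q hq => h.inj q (by omega), fun q hq => h.surj q (by omega)⟩

theorem Qiso.id (C : Cdga k A) (m : ℕ) : Qiso (Cdga.Hom.id C) m :=
  ⟨fun _ _ _ _ h => h, fun _ _ z hz => ⟨z, hz, by
    show z - z ∈ _
    rw [sub_self]; exact zero_mem _⟩⟩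

theorem Qiso.comp {ψ : Cdga.Hom C' C''} {φ : Cdga.Hom C C'} {m : ℕ} (hψ : Qiso ψ m)
    (hφ : Qiso φ m) : Qiso (ψ.comp φ) m := by
  refine ⟨fun q hq z hz h => hφ.inj q hq z hz (hψ.inj q hq _ (φ.map_Z hz) h), fun q hq z hz => ?_⟩
  obtain ⟨z', hz', h'⟩ := hψ.surj q hq z hz
  obtain ⟨z'', hz'', h''⟩ := hφ.surj q hq z' hz'
  refine ⟨z'', hz'', ?_⟩
  have h3 := ψ.map_B h''
  have h4 := add_mem h' h3
  rw [map_sub] at h4
  show z - ψ.f (φ.f z'') ∈ _
  convert h4 using 1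
  abel

/-! ### The extension `A ⟨e⟩` -/

section Ext

variable {l : ℕ} (hl : Odd l) {x : A} (hx : x ∈ C.deg (l + 1)) (hdx : C.d x = 0)
  {x' : A'} (hx' : x' ∈ C'.deg (l + 1)) (hdx' : C'.d x' = 0)

theorem degS_degS {n : ℕ} {b : A} (h : b ∈ C.degS 1 n) : C.d b ∈ C.deg n := by
  rcases C.mem_degS h with h | ⟨j, rfl, h⟩
  · rw [h, map_zero]; exact zero_mem _
  · exact C.d_mem h

theorem sg_mem {n : ℕ} {a : A} (h : a ∈ C.deg n) : C.sg a ∈ C.deg n := by
  rw [C.sg_deg h]; exact Submodule.smul_mem _ _ h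

theorem sg_mem_Z {n : ℕ} {a : A} (h : a ∈ C.Z n) : C.sg a ∈ C.Z n := by
  refine ⟨sg_mem h.1, ?_⟩
  show C.d (C.sg a) = 0
  rw [← neg_eq_iff_eq_neg.2 (C.sg_d a)]
  have : C.d a = 0 := h.2
  rw [this, map_zero, neg_zero]

theorem sg_mem_B {n : ℕ} {a : A} (h : a ∈ C.B n) : C.sg a ∈ C.B n := by
  rw [memB] at h ⊢
  obtain ⟨b, hb, rfl⟩ := h
  refine ⟨-C.sg b, ?_, by rw [map_neg, C.sg_d]⟩
  refine neg_mem ?_
  rcases C.mem_degS hb with h | ⟨j, rfl, h⟩
  · rw [h, map_zero]; exact zero_mem _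
  · exact C.degS_of rfl (sg_mem h)

theorem mul_closed_mem_B {n p : ℕ} {a : A} (h : a ∈ C.B n) {x : A} (hx : x ∈ C.deg p)
    (hdx : C.d x = 0) : a * x ∈ C.B (n + p) := by
  rw [memB] at h ⊢
  obtain ⟨b, hb, rfl⟩ := h
  refine ⟨b * x, ?_, by rw [C.leib, hdx, mul_zero, add_zero]⟩
  rcases C.mem_degS hb with h | ⟨j, rfl, h⟩
  · rw [h, zero_mul]; exact zero_mem _
  · exact C.degS_of (by ring) (C.mul_mem h hx)

theorem mul_closed_mem_Z {n p : ℕ} {a : A} (h : a ∈ C.Z n) {x : A} (hx : x ∈ C.deg p)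
    (hdx : C.d x = 0) : a * x ∈ C.Z (n + p) := by
  refine ⟨C.mul_mem h.1 hx, ?_⟩
  have : C.d a = 0 := h.2
  show C.d (a * x) = 0
  rw [C.leib, this, hdx, zero_mul, mul_zero, add_zero]

theorem degS_zero_of_lt {l n : ℕ} (h : n < l) {b : A} (hb : b ∈ C.degS l n) : b = 0 := by
  rcases C.mem_degS hb with h1 | ⟨j, hj, -⟩
  · exact h1
  · omega

/-- **Stability under `A ↦ A ⟨e⟩`.** -/
theorem Qiso.ex {φ : Cdga.Hom C C'} {m : ℕ} (h : Qiso φ m) (hxx : φ.f x = x') :
    Qiso (φ.exMap hl hx hdx hx' hdx' hxx) m := by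
  obtain ⟨l', hl'⟩ := hl
  have hl1 : 1 ≤ l := by omega
  subst hxx
  refine ⟨?_, ?_⟩
  · -- injectivity
    rintro q hq ⟨a, b⟩ ⟨⟨ha, hb⟩, hz⟩ hB
    have hz1 : C.d a + C.sg b * x = 0 := congrArg Ex.fst hz
    have hz2 : C.d b = 0 := congrArg Ex.snd hz
    change a ∈ C.deg q at ha
    change b ∈ C.degS l q at hb
    cases q with
    | zero =>
      have h0 : (⟨φ.f a, φ.f b⟩ : Ex k C') = 0 := hB
      have h1 : φ.f a = 0 := congrArg Ex.fst h0
      have hb0 : b = 0 := degS_zero_of_lt (by omega) hb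
      have ha0 : a ∈ C.B 0 := h.inj 0 (by omega) a
        ⟨ha, by rw [hb0, map_zero, zero_mul, add_zero] at hz1; exact hz1⟩ h1
      have ha1 : a = 0 := ha0
      show (⟨a, b⟩ : Ex k C) = 0
      rw [ha1, hb0]
      rfl
    | succ n =>
      obtain ⟨⟨a', b'⟩, ⟨ha', hb'⟩, hw⟩ := hB
      change a' ∈ C'.deg n at ha'
      change b' ∈ C'.degS l n at hb'
      have hw1 : C'.d a' + C'.sg b' * φ.f x = φ.f a := congrArg Ex.fst hw
      have hw2 : C'.d b' = φ.f b := congrArg Ex.snd hw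
      by_cases hnl : n < l
      · have hb'0 : b' = 0 := degS_zero_of_lt hnl hb'
        have hb0 : b = 0 := by
          by_cases h1 : n + 1 < l
          · exact degS_zero_of_lt h1 hb
          · have h2 : n + 1 = 0 + l := by omega
            rw [h2, C.degS_add] at hb
            have h3 : φ.f b ∈ C'.B 0 := by
              rw [← hw2, hb'0, map_zero]; exact zero_mem _
            exact h.inj 0 (by omega) b ⟨hb, hz2⟩ h3
        rw [hb0, map_zero, zero_mul, add_zero] at hz1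
        rw [hb'0, map_zero, zero_mul, add_zero] at hw1
        obtain ⟨a₃, ha₃, hd₃⟩ := h.inj (n + 1) hq a ⟨ha, hz1⟩ ⟨a', ha', hw1⟩
        refine ⟨⟨a₃, 0⟩, ⟨ha₃, zero_mem _⟩, ?_⟩
        ext
        · show C.d a₃ + C.sg 0 * x = a
          rw [map_zero, zero_mul, add_zero, hd₃]
        · show C.d 0 = b
          rw [map_zero, hb0]
      · obtain ⟨i, rfl⟩ : ∃ i, n = i + l := ⟨n - l, by omega⟩
        rw [C'.degS_add] at hb'
        have e1 : i + l + 1 = (i + 1) + l := by omega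
        rw [e1, C.degS_add] at hb
        obtain ⟨c, hc, hdc⟩ := h.inj (i + 1) (by omega) b ⟨hb, hz2⟩ ⟨b', hb', hw2⟩
        have hb'' : b' - φ.f c ∈ C'.Z i := by
          refine ⟨sub_mem hb' (φ.deg hc), ?_⟩
          show C'.d (b' - φ.f c) = 0
          rw [map_sub, hw2, ← φ.d, hdc, sub_self]
        obtain ⟨b₂, hb₂, hB₂⟩ := h.surj i (by omega) _ hb''
        have hb₂d : C.d b₂ = 0 := hb₂.2
        have hcx : C.sg c * x ∈ C.deg (i + l + 1) := by
          have := C.mul_mem (sg_mem hc) hx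
          rwa [← add_assoc] at this
        have hbx : C.sg b₂ * x ∈ C.deg (i + l + 1) := by
          have := C.mul_mem (sg_mem hb₂.1) hx
          rwa [← add_assoc] at this
        have hda : C.d (a - C.sg c * x - C.sg b₂ * x) = 0 := by
          rw [map_sub, map_sub, C.leib, C.leib, hdx, mul_zero, mul_zero, add_zero, add_zero,
            ← neg_eq_iff_eq_neg.2 (C.sg_d c), ← neg_eq_iff_eq_neg.2 (C.sg_d b₂), hdc, hb₂d,
            map_zero, neg_zero, zero_mul, sub_zero, neg_mul, sub_neg_eq_add, hz1]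
        have hBa : φ.f (a - C.sg c * x - C.sg b₂ * x) ∈ C'.B (i + l + 1) := by
          have h1 : C'.sg (b' - φ.f c - φ.f b₂) * φ.f x ∈ C'.B (i + (l + 1)) :=
            mul_closed_mem_B (sg_mem_B hB₂) hx' hdx'
          rw [← add_assoc] at h1
          have h2 := add_mem (d_mem_B ha') h1
          convert h2 using 1
          rw [map_sub, map_sub, ← hw1, map_mul, map_mul, φ.sg, φ.sg, map_sub, map_sub, sub_mul,
            sub_mul]
          abel
        obtain ⟨a₃, ha₃, hd₃⟩ := h.inj (i + l + 1) hq _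
          ⟨sub_mem (sub_mem ha hcx) hbx, hda⟩ hBa
        refine ⟨⟨a₃, b₂ + c⟩, ⟨ha₃, ?_⟩, ?_⟩
        · show b₂ + c ∈ C.degS l (i + l)
          rw [C.degS_add]
          exact add_mem hb₂.1 hc
        · ext
          · show C.d a₃ + C.sg (b₂ + c) * x = a
            rw [hd₃, map_add, add_mul]
            abel
          · show C.d (b₂ + c) = b
            rw [map_add, hb₂d, zero_add, hdc]
  · -- surjectivity
    rintro q hq ⟨a', b'⟩ ⟨⟨ha', hb'⟩, hz⟩
    have hz1 : C'.d a' + C'.sg b' * φ.f x = 0 := congrArg Ex.fst hz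
    have hz2 : C'.d b' = 0 := congrArg Ex.snd hz
    change a' ∈ C'.deg q at ha'
    change b' ∈ C'.degS l q at hb'
    by_cases hql : q < l
    · have hb'0 : b' = 0 := degS_zero_of_lt hql hb'
      rw [hb'0, map_zero, zero_mul, add_zero] at hz1
      obtain ⟨a, ha, hB⟩ := h.surj q hq a' ⟨ha', hz1⟩
      have had : C.d a = 0 := ha.2
      refine ⟨⟨a, 0⟩, ⟨⟨ha.1, zero_mem _⟩, ?_⟩, ?_⟩
      · ext
        · show C.d a + C.sg 0 * x = 0
          rw [map_zero, zero_mul, add_zero, had]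
        · show C.d 0 = 0
          exact map_zero _
      · rw [memB] at hB ⊢
        obtain ⟨w, hw, hdw⟩ := hB
        refine ⟨⟨w, 0⟩, ?_, ?_⟩
        · rcases C'.mem_degS hw with h1 | ⟨j, rfl, h1⟩
          · rw [h1]; exact zero_mem _
          · exact Cdga.degS_of _ rfl ⟨h1, zero_mem _⟩
        · ext
          · show C'.d w + C'.sg 0 * φ.f x = a' - φ.f a
            rw [map_zero, zero_mul, add_zero, hdw]
          · show C'.d 0 = b' - φ.f 0
            rw [map_zero, map_zero, hb'0, sub_zero]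
    · obtain ⟨i, rfl⟩ : ∃ i, q = i + l := ⟨q - l, by omega⟩
      rw [C'.degS_add] at hb'
      obtain ⟨b, hb, hB⟩ := h.surj i (by omega) b' ⟨hb', hz2⟩
      have hbd : C.d b = 0 := hb.2
      rw [memB] at hB
      obtain ⟨c', hc', hdc'⟩ := hB
      have hcx : C'.sg c' * φ.f x ∈ C'.deg (i + l) := by
        rcases C'.mem_degS hc' with h1 | ⟨j, rfl, h1⟩
        · rw [h1, map_zero, zero_mul]; exact zero_mem _
        · have := C'.mul_mem (sg_mem h1) hx'
          rwa [show j + (l + 1) = j + 1 + l by omega] at this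
      have hda : C'.d (a' - C'.sg c' * φ.f x) = -φ.f (C.sg b * x) := by
        rw [map_sub, C'.leib, hdx', mul_zero, add_zero, ← neg_eq_iff_eq_neg.2 (C'.sg_d c'), hdc',
          map_mul, φ.sg, map_sub, eq_neg_of_add_eq_zero_left hz1]
        rw [neg_mul, sub_mul]
        abel
      have hbx : C.sg b * x ∈ C.Z (i + l + 1) := by
        have := mul_closed_mem_Z (sg_mem_Z hb) hx hdx
        rwa [← add_assoc] at this
      obtain ⟨a₁, ha₁, hd₁⟩ := h.inj (i + l + 1) (by omega) _ hbx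
        ⟨-(a' - C'.sg c' * φ.f x), neg_mem (sub_mem ha' hcx), by rw [map_neg, hda, neg_neg]⟩
      obtain ⟨a₂, ha₂, hB₂⟩ := h.surj (i + l) hq (a' - C'.sg c' * φ.f x + φ.f a₁)
        ⟨add_mem (sub_mem ha' hcx) (φ.deg ha₁), by
          show C'.d _ = 0
          rw [map_add, hda, ← φ.d, hd₁, neg_add_cancel]⟩
      have ha₂d : C.d a₂ = 0 := ha₂.2
      refine ⟨⟨a₂ - a₁, b⟩, ⟨⟨sub_mem ha₂.1 ha₁, ?_⟩, ?_⟩, ?_⟩
      · show b ∈ C.degS l (i + l)
        rw [C.degS_add]; exact hb.1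
      · ext
        · show C.d (a₂ - a₁) + C.sg b * x = 0
          rw [map_sub, ha₂d, hd₁, zero_sub, neg_add_cancel]
        · exact hbd
      · rw [memB] at hB₂ ⊢
        obtain ⟨w, hw, hdw⟩ := hB₂
        refine ⟨⟨w, c'⟩, ?_, ?_⟩
        · have e2 : i + l = (i + l - 1) + 1 := by omega
          rw [e2]
          rw [e2] at hw
          rw [Cdga.degS_add] at hw ⊢
          refine ⟨hw, ?_⟩
          rcases C'.mem_degS hc' with h1 | ⟨j, rfl, h1⟩
          · show c' ∈ _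
            rw [h1]; exact zero_mem _
          · exact C'.degS_of (by omega) h1
        · ext
          · show C'.d w + C'.sg c' * φ.f x = a' - φ.f (a₂ - a₁)
            rw [hdw, map_sub]
            abel
          · show C'.d c' = b' - φ.f b
            exact hdc'

end Ext

/-! ### Killing a non zero divisor -/

section Quot

variable {l : ℕ} (hl : Odd l) {x : A} (hx : x ∈ C.deg (l + 1)) (hdx : C.d x = 0)

/-- If `x = d e` is not a zero divisor and `ρ : A → A'` is the quotient by `x`, then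
`A ⟨e⟩ → A'`, `e ↦ 0`, is a quasi-isomorphism. -/
theorem qiso_quot (ρ : Cdga.Hom C C') (h2 : (2 : k) ≠ 0)
    (hρ : C'.d 0 = ρ.f x)
    (hsurj : ∀ n, ∀ t' ∈ C'.deg n, ∃ t ∈ C.deg n, ρ.f t = t')
    (hker : ∀ n, ∀ t ∈ C.deg n, ρ.f t = 0 → ∃ b ∈ C.degS (l + 1) n, t = b * x)
    (hnzd : ∀ n, ∀ b ∈ C.deg n, b * x = 0 → b = 0) (m : ℕ) :
    Qiso (ρ.exLift h2 hl hx hdx (zero_mem (C'.deg l)) hρ) m := by
  have hl0 := hl
  obtain ⟨l', hl'⟩ := hl
  have hx0 : ρ.f x = 0 := by rw [← hρ, map_zero]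
  have hnz : ∀ n, ∀ b ∈ C.degS l n, b * x = 0 → b = 0 := by
    intro n b hb h
    rcases C.mem_degS hb with h1 | ⟨j, -, h1⟩
    · exact h1
    · exact hnzd j b h1 h
  refine ⟨?_, ?_⟩
  · rintro q - ⟨a, b⟩ ⟨⟨ha, hb⟩, hz⟩ hB
    have hz1 : C.d a + C.sg b * x = 0 := congrArg Ex.fst hz
    have hz2 : C.d b = 0 := congrArg Ex.snd hz
    change a ∈ C.deg q at ha
    change b ∈ C.degS l q at hb
    rw [memB] at hB
    obtain ⟨t', ht', hdt'⟩ := hB
    replace hdt' : C'.d t' = ρ.f a + ρ.f b * 0 := hdt'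
    rw [mul_zero, add_zero] at hdt'
    obtain ⟨t, ht, htt⟩ : ∃ t ∈ C.degS 1 q, ρ.f t = t' := by
      rcases C'.mem_degS ht' with h | ⟨j, rfl, h⟩
      · exact ⟨0, zero_mem _, by rw [map_zero, h]⟩
      · obtain ⟨t, ht, h1⟩ := hsurj j t' h
        exact ⟨t, C.degS_of rfl ht, h1⟩
    obtain ⟨c, hc, hac⟩ := hker q (a - C.d t) (sub_mem ha (degS_degS ht)) (by
      rw [map_sub, ρ.d, htt, hdt', sub_self])
    have hbc : C.sg b = -C.d c := by
      have h1 : (C.sg b + C.d c) * x = 0 := by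
        have h3 : C.d (a - C.d t) = C.d c * x := by
          rw [hac, C.leib, hdx, mul_zero, add_zero]
        rw [map_sub, C.d_d, sub_zero] at h3
        rw [add_mul, ← h3, add_comm]
        exact hz1
      have h4 : C.sg b + C.d c ∈ C.degS l q := by
        refine add_mem ?_ ?_
        · rcases C.mem_degS hb with h | ⟨j, rfl, h⟩
          · rw [h, map_zero]; exact zero_mem _
          · exact C.degS_of rfl (sg_mem h)
        · rcases C.mem_degS hc with h | ⟨j, rfl, h⟩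
          · rw [h, map_zero]; exact zero_mem _
          · exact C.degS_of (by omega) (C.d_mem h)
      exact eq_neg_of_add_eq_zero_left (hnz q _ h4 h1)
    rw [memB]
    refine ⟨⟨t, C.sg c⟩, ?_, ?_⟩
    · cases q with
      | zero =>
        have h1 : t = 0 := degS_zero_of_lt (by omega) ht
        have h3 : c = 0 := degS_zero_of_lt (by omega) hc
        rw [h1, h3, map_zero]; exact zero_mem _
      | succ n =>
        rw [Cdga.degS_add] at ht ⊢
        refine ⟨ht, ?_⟩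
        show C.sg c ∈ C.degS l n
        rcases C.mem_degS hc with h | ⟨j, hj, h⟩
        · rw [h, map_zero]; exact zero_mem _
        · exact C.degS_of (by omega) (sg_mem h)
    · ext
      · show C.d t + C.sg (C.sg c) * x = a
        rw [C.sg_sg, ← hac]
        abel
      · show C.d (C.sg c) = b
        have h5 : C.d c = -C.sg b := by rw [hbc, neg_neg]
        rw [← neg_eq_iff_eq_neg.2 (C.sg_d c), h5, map_neg, C.sg_sg, neg_neg]
  · rintro q - t' ⟨ht', hdt'⟩
    replace hdt' : C'.d t' = 0 := hdt'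
    obtain ⟨t, ht, rfl⟩ := hsurj q t' ht'
    obtain ⟨b, hb, hbt⟩ := hker (q + 1) (C.d t) (C.d_mem ht) (by rw [ρ.d, hdt'])
    have hb' : b ∈ C.degS l q := by
      rcases C.mem_degS hb with h | ⟨j, hj, h⟩
      · rw [h]; exact zero_mem _
      · exact C.degS_of (by omega) h
    have hdb : C.d b = 0 := by
      have h1 : C.d b * x = 0 := by
        have h3 := C.d_d t
        rwa [hbt, C.leib, hdx, mul_zero, add_zero] at h3
      rcases C.mem_degS hb' with h | ⟨j, hj, h⟩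
      · rw [h, map_zero]
      · exact hnzd _ _ (C.d_mem h) h1
    refine ⟨⟨t, -C.sg b⟩, ⟨⟨ht, neg_mem ?_⟩, ?_⟩, ?_⟩
    · rcases C.mem_degS hb' with h | ⟨j, hj, h⟩
      · rw [h, map_zero]; exact zero_mem _
      · exact C.degS_of hj (sg_mem h)
    · ext
      · show C.d t + C.sg (-C.sg b) * x = 0
        rw [map_neg, C.sg_sg, neg_mul, hbt, add_neg_cancel]
      · show C.d (-C.sg b) = 0
        rw [map_neg, ← neg_eq_iff_eq_neg.2 (C.sg_d b), hdb, map_zero, neg_zero, neg_zero]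
    · show ρ.f t - (ρ.f t + ρ.f (-C.sg b) * 0) ∈ _
      rw [mul_zero, add_zero, sub_self]
      exact zero_mem _

end Quot

end Vale.Agent.P216.V921
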