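import Mathlib
import Vale.Agent.P216.V609.Cdga
import Vale.Agent.P216.V921.Qis

/-!
# P216-V (F) ALG-H: the piece `k[x] ⊗ Λ(y)` of the minimal model, with some variables killed

`Dat`: variables `x_j` of degree `2 w j` (`j ∉ J`), `y` of degree `2 f + 1`,
`d x_j = y Q_j`, `d y = P`. The carrier is `TrivSqZeroExt R R`, `R = MvPolynomial σ k`
(the pair `(R, T)` is `R + y T`).
-/

set_option linter.unusedSectionVars false

open MvPolynomial
open Vale.Agent.P216.V609

namespace Vale.Agent.P216.V921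

variable {k : Type*} [Field k]

/-- polynomials without the variables of `J`, all monomials `m` with `2 weight m + s = n` -/
def hp {σ : Type} (k : Type*) [Field k] (w : σ → ℕ) (J : Set σ) (s n : ℕ) :
    Submodule k (MvPolynomial σ k) where
  carrier := {R | ∀ m ∈ R.support, 2 * Finsupp.weight w m + s = n ∧ ∀ j ∈ J, m j = 0}
  add_mem' := by
    classical
    intro a b ha hb m hm
    rcases Finset.mem_union.1 (support_add hm) with h | h
    · exact ha m h
    · exact hb m h
  zero_mem' := by simp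
  smul_mem' := by
    intro c a ha m hm
    exact ha m (support_smul hm)

variable {σ : Type} {w : σ → ℕ} {J : Set σ}

theorem mem_hp {s n : ℕ} {R : MvPolynomial σ k} : R ∈ hp k w J s n ↔
    ∀ m ∈ R.support, 2 * Finsupp.weight w m + s = n ∧ ∀ j ∈ J, m j = 0 := Iff.rfl

theorem hp_mul {s n s' n' : ℕ} {R R' : MvPolynomial σ k} (h : R ∈ hp k w J s n)
    (h' : R' ∈ hp k w J s' n') : R * R' ∈ hp k w J (s + s') (n + n') := by
  classical
  intro m hm
  obtain ⟨m1, hm1, m2, hm2, rfl⟩ := Finset.mem_add.1 (support_mul R R' hm)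
  obtain ⟨h1, h2⟩ := h m1 hm1
  obtain ⟨h3, h4⟩ := h' m2 hm2
  refine ⟨?_, fun j hj => ?_⟩
  · rw [map_add]; omega
  · rw [Finsupp.add_apply, h2 j hj, h4 j hj]

theorem hp_congr {s n s' n' : ℕ} {R : MvPolynomial σ k} (h : R ∈ hp k w J s n)
    (hs : s' + n = s + n') : R ∈ hp k w J s' n' := by
  intro m hm
  obtain ⟨h1, h2⟩ := h m hm
  exact ⟨by omega, h2⟩

theorem hp_shift {s n : ℕ} (c : ℕ) {R : MvPolynomial σ k} :
    R ∈ hp k w J (s + c) (n + c) ↔ R ∈ hp k w J s n :=
  ⟨fun h => hp_congr h (by omega), fun h => hp_congr h (by omega)⟩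

theorem hp_one : (1 : MvPolynomial σ k) ∈ hp k w J 0 0 := by
  classical
  intro m hm
  have h1 : m = 0 := by
    by_contra h
    rw [mem_support_iff, coeff_one, if_neg (Ne.symm h)] at hm
    exact hm rfl
  subst h1
  exact ⟨by simp, fun j _ => rfl⟩

theorem hp_X {j : σ} (hj : j ∉ J) : (X j : MvPolynomial σ k) ∈ hp k w J 0 (2 * w j) := by
  classical
  intro m hm
  rw [support_X, Finset.mem_singleton] at hm
  subst hm
  refine ⟨by simp [Finsupp.weight_single], fun l hl => ?_⟩
  rw [Finsupp.single_apply, if_neg]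
  rintro rfl
  exact hj hl

theorem hp_zero_of_parity {s n : ℕ} {R : MvPolynomial σ k} (h : R ∈ hp k w J s n)
    (hp : ¬ Even (n + s)) : R = 0 := by
  by_contra h0
  obtain ⟨m, hm⟩ := Finset.nonempty_iff_ne_empty.2 (fun h1 => h0 (support_eq_empty.1 h1))
  obtain ⟨h1, -⟩ := h m hm
  exact hp ⟨Finsupp.weight w m + s, by omega⟩

theorem hp_zero_of_lt {s n : ℕ} {R : MvPolynomial σ k} (h : R ∈ hp k w J s n)
    (hp : n < s) : R = 0 := by
  by_contra h0
  obtain ⟨m, hm⟩ := Finset.nonempty_iff_ne_empty.2 (fun h1 => h0 (support_eq_empty.1 h1))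
  obtain ⟨h1, -⟩ := h m hm
  omega

theorem hp_pderiv {s n : ℕ} {R : MvPolynomial σ k} (h : R ∈ hp k w J s n) (j : σ) :
    pderiv j R ∈ hp k w J (s + 2 * w j) n := by
  classical
  intro m hm
  rw [mem_support_iff] at hm
  have h1 : m + Finsupp.single j 1 ∈ R.support := by
    rw [mem_support_iff]
    intro h0
    apply hm
    rw [coeff_pderiv, h0, zero_mul]
  obtain ⟨h2, h3⟩ := h _ h1
  rw [map_add, Finsupp.weight_single] at h2
  refine ⟨by simp at h2; omega, fun l hl => ?_⟩
  have h4 := h3 l hl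
  rw [Finsupp.add_apply] at h4
  omega

/-- The data of a piece. -/
structure Dat (k : Type*) [Field k] (σ : Type) where
  w : σ → ℕ
  w_pos : ∀ j, 1 ≤ w j
  f : ℕ
  f_pos : 1 ≤ f
  J : Set σ
  P : MvPolynomial σ k
  P_mem : P ∈ hp k w J 0 (2 * f + 2)
  Q : σ → MvPolynomial σ k
  Q_mem : ∀ j, Q j ∈ hp k w J (2 * f) (2 * w j)
  Q_zero : ∀ j, w j ≤ f → Q j = 0
  Q_J : ∀ j ∈ J, Q j = 0
  PQ : P = 0 ∨ ∀ j, Q j = 0

namespace Dat

variable (D : Dat k σ) [Fintype σ]

/-- the derivation `x_j ↦ Q_j` -/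
noncomputable def q : Derivation k (MvPolynomial σ k) (MvPolynomial σ k) := mkDerivation k D.Q

theorem q_eq (R : MvPolynomial σ k) : D.q R = ∑ j, pderiv j R * D.Q j := by
  classical
  induction R using MvPolynomial.induction_on with
  | C a => simp [q]
  | add a b ha hb => simp only [map_add, ha, hb, add_mul, Finset.sum_add_distrib]
  | mul_X a j ha =>
    simp only [Derivation.leibniz, smul_eq_mul, ha]
    rw [q, mkDerivation_X]
    simp only [pderiv_X, add_mul, Finset.sum_add_distrib, Finset.mul_sum]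
    congr 1
    · simp [Pi.single_apply, Finset.sum_ite_eq, mul_ite, ite_mul]
    · exact Finset.sum_congr rfl fun l _ => by ring

theorem q_mem {n : ℕ} {s : ℕ} {R : MvPolynomial σ k} (h : R ∈ hp k D.w D.J s n) :
    D.q R ∈ hp k D.w D.J (s + (2 * D.f + 1)) (n + 1) := by
  rw [q_eq]
  refine Submodule.sum_mem _ fun j _ => ?_
  exact hp_congr (hp_mul (hp_pderiv h j) (D.Q_mem j)) (by omega)

theorem P_mul_q (R : MvPolynomial σ k) : D.P * D.q R = 0 := by
  rcases D.PQ with h | h
  · rw [h, zero_mul]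
  · rw [q_eq]; simp [h]

theorem q_P_mul (R : MvPolynomial σ k) : D.q (D.P * R) = 0 := by
  rcases D.PQ with h | h
  · rw [h, zero_mul, map_zero]
  · rw [q_eq]; simp [h]

/-- the underlying ring of the piece -/
abbrev Car (k : Type*) [Field k] (σ : Type) : Type _ :=
  TrivSqZeroExt (MvPolynomial σ k) (MvPolynomial σ k)

open TrivSqZeroExt

/-- sign -/
noncomputable def sgn : Car k σ →ₐ[k] Car k σ := AlgHom.ofLinearMap
  { toFun := fun a => inl a.fst + inr (-a.snd)
    map_add' := fun a b => by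
      ext
      · simp
      · simp; abel
    map_smul' := fun c a => by ext <;> simp } (by ext <;> simp) (fun a b => by
      ext
      · simp
      · simp; ring)

@[simp] theorem sgn_fst (a : Car k σ) : (sgn a).fst = a.fst := by
  show (inl a.fst + inr (-a.snd) : Car k σ).fst = _
  simp

@[simp] theorem sgn_snd (a : Car k σ) : (sgn a).snd = -a.snd := by
  show (inl a.fst + inr (-a.snd) : Car k σ).snd = _
  simp

/-- differential -/
noncomputable def dd : Car k σ →ₗ[k] Car k σ where
  toFun a := inl (D.P * a.snd) + inr (D.q a.fst)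
  map_add' a b := by
    ext
    · simp [mul_add]
    · simp
  map_smul' c a := by ext <;> simp

@[simp] theorem dd_fst (a : Car k σ) : (D.dd a).fst = D.P * a.snd := by
  show (inl (D.P * a.snd) + inr (D.q a.fst) : Car k σ).fst = _
  simp

@[simp] theorem dd_snd (a : Car k σ) : (D.dd a).snd = D.q a.fst := by
  show (inl (D.P * a.snd) + inr (D.q a.fst) : Car k σ).snd = _
  simp

/-- degrees -/
def dg (n : ℕ) : Submodule k (Car k σ) where
  carrier := {a | a.fst ∈ hp k D.w D.J 0 n ∧ a.snd ∈ hp k D.w D.J (2 * D.f + 1) n}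
  add_mem' ha hb := ⟨by rw [fst_add]; exact add_mem ha.1 hb.1,
    by rw [snd_add]; exact add_mem ha.2 hb.2⟩
  zero_mem' := ⟨zero_mem _, zero_mem _⟩
  smul_mem' c a h := ⟨by rw [fst_smul]; exact Submodule.smul_mem _ c h.1,
    by rw [snd_smul]; exact Submodule.smul_mem _ c h.2⟩

theorem mem_dg {n : ℕ} {a : Car k σ} : a ∈ D.dg n ↔
    a.fst ∈ hp k D.w D.J 0 n ∧ a.snd ∈ hp k D.w D.J (2 * D.f + 1) n := Iff.rfl

theorem dg_even {n : ℕ} {a : Car k σ} (h : a ∈ D.dg n) (hn : Even n) : a.snd = 0 :=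
  hp_zero_of_parity h.2 (by
    rw [Nat.even_add]
    have : ¬ Even (2 * D.f + 1) := by simp
    tauto)

theorem dg_odd {n : ℕ} {a : Car k σ} (h : a ∈ D.dg n) (hn : ¬ Even n) : a.fst = 0 :=
  hp_zero_of_parity h.1 (by simpa using hn)

/-- **The piece** -/
noncomputable def cdga : Cdga k (Car k σ) where
  deg := D.dg
  sg := sgn
  d := D.dd
  one_mem := ⟨by rw [fst_one]; exact hp_one, by rw [snd_one]; exact zero_mem _⟩
  mul_mem := by
    intro p q a b ha hb
    refine ⟨?_, ?_⟩
    · rw [fst_mul]; exact hp_mul ha.1 hb.1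
    · rw [snd_mul]
      refine add_mem ?_ ?_
      · rw [smul_eq_mul]
        exact hp_congr (hp_mul ha.1 hb.2) (by omega)
      · rw [MulOpposite.smul_eq_mul_unop, MulOpposite.unop_op]
        exact hp_congr (hp_mul ha.2 hb.1) (by omega)
  sg_deg := by
    intro p a ha
    by_cases hp : Even p
    · have h := D.dg_even ha hp
      ext
      · simp [hp.neg_one_pow]
      · simp [h]
    · have h := D.dg_odd ha hp
      rw [Nat.not_even_iff_odd] at hp
      ext
      · simp [h]
      · simp [hp.neg_one_pow]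
  sg_sg a := by ext <;> simp
  sg_d a := by ext <;> simp
  comm := by
    intro p a ha b
    have h2 : ∀ n : ℕ, ∀ b : Car k σ, sgn^[2 * n] b = b := by
      intro n b
      induction n with
      | zero => rfl
      | succ n ih =>
        rw [show 2 * (n + 1) = 2 * n + 1 + 1 by ring, Function.iterate_succ_apply',
          Function.iterate_succ_apply', ih]
        ext <;> simp
    by_cases hp : Even p
    · obtain ⟨n, rfl⟩ := hp
      rw [← two_mul, h2, mul_comm]
    · have h := D.dg_odd ha hp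
      rw [Nat.not_even_iff_odd] at hp
      obtain ⟨n, rfl⟩ := hp
      have h3 : sgn^[2 * n + 1] b = sgn b :=
        (Function.iterate_succ_apply' sgn (2 * n) b).trans (by rw [h2])
      rw [h3]
      refine TrivSqZeroExt.ext ?_ ?_
      · simp [h]
      · simp [h, mul_comm]
  d_mem := by
    intro p a ha
    refine ⟨?_, ?_⟩
    · rw [dd_fst]
      exact hp_congr (hp_mul D.P_mem ha.2) (by omega)
    · rw [dd_snd]
      exact hp_congr (D.q_mem ha.1) (by omega)
  d_d a := by
    ext
    · simp [D.P_mul_q]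
    · simp [D.q_P_mul]
  leib a b := by
    refine TrivSqZeroExt.ext ?_ ?_
    · simp; ring
    · simp; ring

end Dat

end Vale.Agent.P216.V921
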