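import Mathlib
import Vale.Agent.P216.V921.Piece

/-!
# P216-V (F) ALG-H: killing a variable of the piece

`Dat.kill i`, the map `Dat.kap i : S_J → S_{J ∪ i}`, and `Dat.step`: a map `π : C → S_J` which is a
quasi-isomorphism up to degree `m`, with `π c = x_i`, induces `C ⟨e⟩ → S_{J ∪ i}` (`d e = c`,
`e ↦ 0`), a quasi-isomorphism up to degree `m`.
-/

set_option linter.unusedSectionVars false

open MvPolynomial
open Vale.Agent.P216.V609

namespace Vale.Agent.P216.V921

variable {k : Type*} [Field k] {σ : Type} {w : σ → ℕ} {J : Set σ}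

open Classical in
/-- `x_i ↦ 0` -/
noncomputable def kl (k : Type*) [Field k] (i : σ) : MvPolynomial σ k →ₐ[k] MvPolynomial σ k :=
  aeval fun j => if j = i then 0 else X j

theorem kl_X_self (i : σ) : kl k i (X i) = 0 := by simp [kl]

theorem kl_X {i j : σ} (h : j ≠ i) : kl k i (X j) = X j := by simp [kl, h]

theorem kl_monomial (i : σ) (m : σ →₀ ℕ) (a : k) :
    kl k i (monomial m a) = if m i = 0 then monomial m a else 0 := by
  classical
  rw [kl, aeval_monomial]
  split_ifs with h
  · rw [monomial_eq, Finsupp.prod, Finsupp.prod]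
    congr 1
    refine Finset.prod_congr rfl fun j hj => ?_
    rw [if_neg]
    rintro rfl
    exact (Finsupp.mem_support_iff.1 hj) h
  · rw [Finsupp.prod, Finset.prod_eq_zero (Finsupp.mem_support_iff.2 h), mul_zero]
    rw [if_pos rfl, zero_pow h]

theorem coeff_kl (i : σ) (m : σ →₀ ℕ) (R : MvPolynomial σ k) :
    coeff m (kl k i R) = if m i = 0 then coeff m R else 0 := by
  classical
  induction R using MvPolynomial.induction_on' with
  | monomial u a =>
    rw [kl_monomial]
    by_cases h : m = u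
    · subst h
      split_ifs <;> simp
    · split_ifs with h1 h2 h2
      · rfl
      · rw [coeff_monomial, if_neg (Ne.symm h)]
      · rw [coeff_zero, coeff_monomial, if_neg (Ne.symm h)]
      · rw [coeff_zero]
  | add p q hp hq =>
    rw [map_add, coeff_add, hp, hq, coeff_add]
    split_ifs <;> simp

theorem kl_mem {i : σ} {s n : ℕ} {R : MvPolynomial σ k} (h : R ∈ hp k w J s n) :
    kl k i R ∈ hp k w (insert i J) s n := by
  intro m hm
  rw [mem_support_iff, coeff_kl] at hm
  have h1 : m i = 0 := by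
    by_contra h0
    rw [if_neg h0] at hm
    exact hm rfl
  rw [if_pos h1] at hm
  obtain ⟨h2, h3⟩ := h m (mem_support_iff.2 hm)
  refine ⟨h2, ?_⟩
  rintro j (rfl | hj)
  · exact h1
  · exact h3 j hj

theorem hp_insert_le {i : σ} {s n : ℕ} : hp k w (insert i J) s n ≤ hp k w J s n :=
  fun _ h m hm => ⟨(h m hm).1, fun j hj => (h m hm).2 j (Or.inr hj)⟩

theorem kl_eq_self {i : σ} {s n : ℕ} {R : MvPolynomial σ k} (h : R ∈ hp k w (insert i J) s n) :
    kl k i R = R := by
  ext m
  rw [coeff_kl]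
  split_ifs with h1
  · rfl
  · by_contra h0
    exact h1 ((h m (mem_support_iff.2 (Ne.symm h0))).2 i (Or.inl rfl))

theorem kl_ker {i : σ} {s n : ℕ} {R : MvPolynomial σ k} (h : R ∈ hp k w J s n)
    (h0 : kl k i R = 0) : ∃ R' ∈ hp k w J (s + 2 * w i) n, R = R' * X i := by
  classical
  have h1 : R = divMonomial R (Finsupp.single i 1) * X i := by
    have h2 := divMonomial_add_modMonomial_single R i
    have h3 : modMonomial R (Finsupp.single i 1) = 0 := by
      ext m
      by_cases hm : Finsupp.single i 1 ≤ m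
      · rw [coeff_modMonomial_of_le _ hm, coeff_zero]
      · rw [coeff_modMonomial_of_not_le _ hm, coeff_zero]
        have h4 := congrArg (coeff m) h0
        rw [coeff_kl, coeff_zero, if_pos] at h4
        · exact h4
        · by_contra h5
          apply hm
          intro j
          rw [Finsupp.single_apply]
          split_ifs with h6
          · subst h6; omega
          · exact Nat.zero_le _
    rw [h3, add_zero, mul_comm] at h2
    exact h2.symm
  refine ⟨_, ?_, h1⟩
  intro m hm
  rw [mem_support_iff, coeff_divMonomial] at hm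
  obtain ⟨h2, h3⟩ := h _ (mem_support_iff.2 hm)
  rw [map_add, Finsupp.weight_single] at h2
  refine ⟨by simp at h2; omega, fun l hl => ?_⟩
  have h4 := h3 l hl
  rw [Finsupp.add_apply] at h4
  omega

namespace Dat

variable (D : Dat k σ) [Fintype σ]

open TrivSqZeroExt

open Classical in
/-- the data with `x_i` killed (`Q_i = 0`) -/
noncomputable def kill (i : σ) : Dat k σ where
  w := D.w
  w_pos := D.w_pos
  f := D.f
  f_pos := D.f_pos
  J := insert i D.J
  P := kl k i D.P
  P_mem := kl_mem D.P_mem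
  Q j := if j = i then 0 else kl k i (D.Q j)
  Q_mem j := by
    split_ifs
    · exact zero_mem _
    · exact kl_mem (D.Q_mem j)
  Q_zero j hj := by
    split_ifs
    · rfl
    · rw [D.Q_zero j hj, map_zero]
  Q_J j hj := by
    split_ifs with h
    · rfl
    · rw [D.Q_J j (hj.resolve_left h), map_zero]
  PQ := by
    rcases D.PQ with h | h
    · exact Or.inl (by rw [h, map_zero])
    · exact Or.inr fun j => by rw [h j, map_zero, ite_self]

@[simp] theorem kill_w (i : σ) : (D.kill i).w = D.w := rfl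
@[simp] theorem kill_f (i : σ) : (D.kill i).f = D.f := rfl
@[simp] theorem kill_J (i : σ) : (D.kill i).J = insert i D.J := rfl
@[simp] theorem kill_P (i : σ) : (D.kill i).P = kl k i D.P := rfl

theorem kill_Q {i : σ} (hi : D.Q i = 0) (j : σ) : (D.kill i).Q j = kl k i (D.Q j) := by
  classical
  show (if j = i then 0 else kl k i (D.Q j)) = _
  split_ifs with h
  · rw [h, hi, map_zero]
  · rfl

theorem q_X (j : σ) : D.q (X j) = D.Q j := mkDerivation_X _ _ _

theorem kill_q {i : σ} (hi : D.Q i = 0) (R : MvPolynomial σ k) :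
    (D.kill i).q (kl k i R) = kl k i (D.q R) := by
  induction R using MvPolynomial.induction_on with
  | C a => simp [q, ← algebraMap_eq]
  | add a b ha hb => simp only [map_add, ha, hb]
  | mul_X a j ha =>
    simp only [map_mul, Derivation.leibniz, smul_eq_mul, map_add, ha, D.q_X]
    by_cases hj : j = i
    · subst hj
      rw [kl_X_self, map_zero, hi, map_zero]
    · rw [kl_X hj, (D.kill i).q_X, D.kill_Q hi]

/-- killing on the carrier -/
noncomputable def kpf (k : Type*) [Field k] (i : σ) : Car k σ →ₐ[k] Car k σ := AlgHom.ofLinearMap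
  { toFun := fun a => inl (kl k i a.fst) + inr (kl k i a.snd)
    map_add' := fun a b => by
      refine TrivSqZeroExt.ext ?_ ?_ <;> simp
    map_smul' := fun c a => by
      refine TrivSqZeroExt.ext ?_ ?_ <;> simp } (by refine TrivSqZeroExt.ext ?_ ?_ <;> simp)
    (fun a b => by refine TrivSqZeroExt.ext ?_ ?_ <;> simp)

@[simp] theorem kpf_fst (i : σ) (a : Car k σ) : (kpf k i a).fst = kl k i a.fst := by
  show (inl (kl k i a.fst) + inr (kl k i a.snd) : Car k σ).fst = _
  simp

@[simp] theorem kpf_snd (i : σ) (a : Car k σ) : (kpf k i a).snd = kl k i a.snd := by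
  show (inl (kl k i a.fst) + inr (kl k i a.snd) : Car k σ).snd = _
  simp

/-- **killing** as a morphism of cdgas -/
noncomputable def kap {i : σ} (hi : D.Q i = 0) : Cdga.Hom D.cdga (D.kill i).cdga where
  f := kpf k i
  deg := by
    intro p a ha
    refine ⟨?_, ?_⟩
    · rw [kpf_fst]; exact kl_mem ha.1
    · rw [kpf_snd]; exact kl_mem ha.2
  sg a := by
    show kpf k i (sgn a) = sgn (kpf k i a)
    refine TrivSqZeroExt.ext ?_ ?_ <;> simp
  d a := by
    show kpf k i (D.dd a) = (D.kill i).dd (kpf k i a)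
    refine TrivSqZeroExt.ext ?_ ?_
    · simp
    · simp [D.kill_q hi]

/-- the element `x_i` -/
noncomputable def xx (k : Type*) [Field k] (i : σ) : Car k σ := inl (X i)

@[simp] theorem xx_fst (i : σ) : (xx k i).fst = X i := rfl
@[simp] theorem xx_snd (i : σ) : (xx k i).snd = 0 := rfl

theorem xx_mem {i : σ} (hiJ : i ∉ D.J) : xx k i ∈ D.cdga.deg (2 * D.w i) :=
  ⟨hp_X hiJ, zero_mem _⟩

theorem d_xx {i : σ} (hi : D.Q i = 0) : D.cdga.d (xx k i) = 0 := by
  show D.dd _ = 0
  refine TrivSqZeroExt.ext ?_ ?_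
  · simp
  · simp [D.q_X, hi]

theorem cdga_d (a : Car k σ) : D.cdga.d a = D.dd a := rfl
theorem cdga_sg (a : Car k σ) : D.cdga.sg a = sgn a := rfl
theorem cdga_deg (n : ℕ) : D.cdga.deg n = D.dg n := rfl

variable {A : Type*} [Ring A] [Algebra k A] {C : Cdga k A}

/-- `S_J ⟨e⟩ → S_{J ∪ i}` (`d e = x_i`, `e ↦ 0`) is a quasi-isomorphism -/
theorem qiso_kap (h2 : (2 : k) ≠ 0) {i : σ} (hi : D.Q i = 0) {l : ℕ} (hl : Odd l)
    (hx : xx k i ∈ D.cdga.deg (l + 1)) (hlw : l + 1 = 2 * D.w i) (m : ℕ)
    (hρ : (D.kill i).cdga.d 0 = (D.kap hi).f (xx k i)) :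
    Qiso ((D.kap hi).exLift h2 hl hx (D.d_xx hi) (zero_mem ((D.kill i).cdga.deg l)) hρ) m := by
  refine qiso_quot hl hx (D.d_xx hi) _ h2 hρ ?_ ?_ ?_ m
  · rintro n t ht
    refine ⟨t, ⟨hp_insert_le ht.1, hp_insert_le ht.2⟩, ?_⟩
    show kpf k i t = t
    refine TrivSqZeroExt.ext ?_ ?_
    · rw [kpf_fst]; exact kl_eq_self ht.1
    · rw [kpf_snd]; exact kl_eq_self ht.2
  · rintro n t ht h0
    have h1 : kl k i t.fst = 0 := by
      rw [← kpf_fst]; exact congrArg fst h0
    have h3 : kl k i t.snd = 0 := by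
      rw [← kpf_snd]; exact congrArg snd h0
    obtain ⟨R, hR, hR'⟩ := kl_ker ht.1 h1
    obtain ⟨T, hT, hT'⟩ := kl_ker ht.2 h3
    refine ⟨inl R + inr T, ?_, ?_⟩
    · by_cases hn : l + 1 ≤ n
      · obtain ⟨n', rfl⟩ : ∃ n', n = n' + (l + 1) := ⟨n - (l + 1), by omega⟩
        rw [D.cdga.degS_add]
        refine ⟨?_, ?_⟩
        · simp only [fst_add, fst_inl, fst_inr, add_zero]
          exact hp_congr hR (by omega)
        · simp only [snd_add, snd_inl, snd_inr, zero_add]
          exact hp_congr hT (by omega)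
      · have hR0 : R = 0 := hp_zero_of_lt hR (by omega)
        have hT0 : T = 0 := hp_zero_of_lt hT (by omega)
        rw [hR0, hT0]
        simp
    · refine TrivSqZeroExt.ext ?_ ?_
      · simp [← hR']
      · simp [← hT']
  · rintro n b hb h0
    have h1 := congrArg fst h0
    have h3 := congrArg snd h0
    simp only [fst_mul, snd_mul, xx_fst, xx_snd, fst_zero, snd_zero, smul_zero, zero_add,
      MulOpposite.smul_eq_mul_unop, MulOpposite.unop_op] at h1 h3
    refine TrivSqZeroExt.ext ?_ ?_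
    · exact (mul_eq_zero.1 h1).resolve_right (X_ne_zero i)
    · exact (mul_eq_zero.1 h3).resolve_right (X_ne_zero i)

/-- **THE STEP**: `π : C → S_J`, `π c = x_i` with `Q_i = 0`: `C ⟨e⟩ → S_{J ∪ i}`. -/
theorem step (h2 : (2 : k) ≠ 0) (π : Cdga.Hom C D.cdga) {i : σ} (hi : D.Q i = 0) {l : ℕ} (hl : Odd l) {c : A} (hc : c ∈ C.deg (l + 1)) (hdc : C.d c = 0)
    (hπc : π.f c = xx k i) :
    ∃ π' : Cdga.Hom (C.ex hl hc hdc) (D.kill i).cdga,
      (∀ a, π'.f (Ex.inl C a) = kpf k i (π.f a)) ∧ π'.f (Ex.e C) = 0 ∧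
      ∀ m, Qiso π m → Qiso π' m := by
  have hx : xx k i ∈ D.cdga.deg (l + 1) := by rw [← hπc]; exact π.deg hc
  have hlw : l + 1 = 2 * D.w i := by
    have h1 := hx.1
    have h3 := (h1 (Finsupp.single i 1) (by simp)).1
    rw [Finsupp.weight_single] at h3
    simp at h3
    omega
  have hρ : (D.kill i).cdga.d 0 = (D.kap hi).f (xx k i) := by
    rw [map_zero]
    show 0 = kpf k i (xx k i)
    refine TrivSqZeroExt.ext ?_ ?_
    · simp [kl_X_self]
    · simp
  refine ⟨((D.kap hi).exLift h2 hl hx (D.d_xx hi) (zero_mem ((D.kill i).cdga.deg l)) hρ).comp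
    (π.exMap hl hc hdc hx (D.d_xx hi) hπc), ?_, ?_, fun m hm => ?_⟩
  · intro a
    show kpf k i (π.f a) + kpf k i (π.f 0) * 0 = _
    rw [mul_zero, add_zero]
  · show kpf k i (π.f 0) + kpf k i (π.f 1) * 0 = _
    rw [mul_zero, add_zero, map_zero, map_zero]
  · exact (D.qiso_kap h2 hi hl hx hlw m hρ).comp (hm.ex _ _ _ _ _ _)

end Dat

end Vale.Agent.P216.V921
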