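import Mathlib
import Vale.Agent.P216.V921.Kill

/-!
# P216-V (F) ALG-H: all variables killed

`D.J = univ`: the piece is `Λ(y)`, `d = 0`. Consequences for `π : C → Λ(y)` (quasi-isomorphism up
to degree `m`).
-/

set_option linter.unusedSectionVars false

open MvPolynomial
open Vale.Agent.P216.V609

namespace Vale.Agent.P216.V921

variable {k : Type*} [Field k] {σ : Type} {w : σ → ℕ}

theorem hp_univ {s n : ℕ} {R : MvPolynomial σ k} (h : R ∈ hp k w Set.univ s n) :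
    R = 0 ∨ (s = n ∧ ∃ c : k, R = C c) := by
  classical
  by_cases h0 : R = 0
  · exact Or.inl h0
  · right
    have h1 : ∀ m ∈ R.support, m = 0 := fun m hm => by
      ext j
      exact (h m hm).2 j (Set.mem_univ j)
    obtain ⟨m, hm⟩ := Finset.nonempty_iff_ne_empty.2 (fun h1 => h0 (support_eq_empty.1 h1))
    have hm0 := h1 m hm
    subst hm0
    refine ⟨?_, coeff 0 R, ?_⟩
    · have := (h 0 hm).1
      simp at this
      exact this
    · ext u
      rw [coeff_C]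
      split_ifs with hu
      · rw [← hu]
      · by_contra h2
        exact hu (h1 u (mem_support_iff.2 h2)).symm

namespace Dat

open TrivSqZeroExt

variable (D : Dat k σ) [Fintype σ]

/-- the generator `y` -/
noncomputable def yy (k : Type*) [Field k] (σ : Type) : Car k σ := inr 1

@[simp] theorem yy_fst : (yy k σ).fst = 0 := rfl
@[simp] theorem yy_snd : (yy k σ).snd = 1 := rfl

theorem yy_ne : yy k σ ≠ 0 := fun h => one_ne_zero (congrArg snd h)

theorem yy_mem : yy k σ ∈ D.cdga.deg (2 * D.f + 1) :=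
  ⟨zero_mem _, hp_congr hp_one (by omega)⟩

variable {D}

theorem univ_P (hJ : D.J = Set.univ) : D.P = 0 := by
  have h := D.P_mem
  rw [hJ] at h
  rcases hp_univ h with h | ⟨h, -⟩
  · exact h
  · omega

theorem univ_Q (hJ : D.J = Set.univ) (j : σ) : D.Q j = 0 :=
  D.Q_J j (by rw [hJ]; trivial)

theorem univ_d (hJ : D.J = Set.univ) (a : Car k σ) : D.cdga.d a = 0 := by
  show D.dd a = 0
  refine TrivSqZeroExt.ext ?_ ?_
  · simp [univ_P hJ]
  · rw [dd_snd, q_eq]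
    simp [univ_Q hJ]

theorem univ_B (hJ : D.J = Set.univ) {n : ℕ} {a : Car k σ} (h : a ∈ D.cdga.B n) : a = 0 := by
  rw [memB] at h
  obtain ⟨b, -, rfl⟩ := h
  exact univ_d hJ b

theorem univ_deg (hJ : D.J = Set.univ) {n : ℕ} {a : Car k σ} (h : a ∈ D.cdga.deg n) :
    a = 0 ∨ (n = 0 ∧ ∃ c : k, a = c • 1) ∨ (n = 2 * D.f + 1 ∧ ∃ c : k, a = c • yy k σ) := by
  obtain ⟨h1, h2⟩ := D.mem_dg.1 h
  rw [hJ] at h1 h2
  rcases hp_univ h1 with h1 | ⟨h3, c, h1⟩
  · rcases hp_univ h2 with h2 | ⟨h3, c, h2⟩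
    · exact Or.inl (TrivSqZeroExt.ext h1 h2)
    · right; right
      refine ⟨h3.symm, c, TrivSqZeroExt.ext ?_ ?_⟩
      · simp [h1]
      · rw [h2, snd_smul, yy_snd, smul_eq_C_mul, mul_one]
  · rcases hp_univ h2 with h2 | ⟨h4, -⟩
    · right; left
      refine ⟨h3.symm, c, TrivSqZeroExt.ext ?_ ?_⟩
      · rw [h1, fst_smul, fst_one, smul_eq_C_mul, mul_one]
      · simp [h2]
    · omega

variable {A : Type*} [Ring A] [Algebra k A] {C : Cdga k A} {π : Cdga.Hom C D.cdga} {m : ℕ}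

theorem low_zero (hJ : D.J = Set.univ) (hπ : Qiso π m) {q : ℕ} (h0 : 0 < q) (hq : q ≤ m + 1)
    (hqf : q ≠ 2 * D.f + 1) : C.Z q ≤ C.B q := by
  intro z hz
  refine hπ.inj q hq z hz ?_
  rcases univ_deg hJ (π.deg hz.1) with h | ⟨h, -⟩ | ⟨h, -⟩
  · rw [h]; exact zero_mem _
  · omega
  · exact absurd h hqf

theorem low_one (hJ : D.J = Set.univ) (hπ : Qiso π m) (hm : 2 * D.f + 1 ≤ m + 1) {y : A}
    (hy : y ∈ C.Z (2 * D.f + 1)) {c : k} (hc : c ≠ 0) (hyc : π.f y = c • yy k σ) {z : A}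
    (hz : z ∈ C.Z (2 * D.f + 1)) : ∃ a : k, z - a • y ∈ C.B (2 * D.f + 1) := by
  have h1 : ∃ a : k, π.f z = a • yy k σ := by
    rcases univ_deg hJ (π.deg hz.1) with h | ⟨h, -⟩ | ⟨-, h⟩
    · exact ⟨0, by rw [h, zero_smul]⟩
    · omega
    · exact h
  obtain ⟨a, ha⟩ := h1
  refine ⟨a * c⁻¹, hπ.inj _ hm _ (sub_mem hz (Submodule.smul_mem _ _ hy)) ?_⟩
  rw [map_sub, map_smul, ha, hyc, smul_smul, mul_assoc, inv_mul_cancel₀ hc, mul_one, sub_self]
  exact zero_mem _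

theorem not_B (hJ : D.J = Set.univ) {n : ℕ} {y : A} {c : k} (hc : c ≠ 0)
    (hyc : π.f y = c • yy k σ) : y ∉ C.B n := by
  intro h
  have h1 := univ_B hJ (π.map_B h)
  rw [hyc] at h1
  exact (smul_ne_zero hc yy_ne) h1

end Dat

end Vale.Agent.P216.V921
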