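import Mathlib
import Vale.Agent.P216.V921.End
import Vale.Agent.P216.V775.Kos

/-!
# P216-V (F) ALG-H: the Koszul tower over the piece is quasi-isomorphic to `Λ(y)`
-/

universe u w'

set_option linter.unusedSectionVars false

open MvPolynomial Finset
open Vale.Agent.P216.V609
open Vale.Agent.P216.V775

namespace Vale.Agent.P216.V921

variable {k : Type w'} [Field k] {σ : Type} [Fintype σ] [DecidableEq σ]

namespace Dat

/-- the first variable outside `J` has `Q_i = 0` -/
theorem Q_min (D : Dat k σ) {i : σ} (hmin : ∀ l, D.w l < D.w i → l ∈ D.J) : D.Q i = 0 := by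
  by_contra h0
  obtain ⟨m, hm⟩ := Finset.nonempty_iff_ne_empty.2 (fun h1 => h0 (support_eq_empty.1 h1))
  obtain ⟨h1, h2⟩ := D.Q_mem i m hm
  have hm0 : m = 0 := by
    ext j
    by_contra hj
    have hj' : m j ≠ 0 := hj
    have h3 : j ∉ D.J := fun h => hj' (h2 j h)
    have h4 : D.w i ≤ D.w j := by
      by_contra h
      exact h3 (hmin j (by omega))
    have h5 : D.w j ≤ Finsupp.weight D.w m := Finsupp.le_weight_of_ne_zero' D.w hj'
    have := D.f_pos
    omega
  subst hm0
  simp only [map_zero, mul_zero, zero_add] at h1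
  exact h0 (D.Q_zero i (by omega))

end Dat

theorem kill_tower (h2 : (2 : k) ≠ 0) {w : σ → ℕ} {f : ℕ} {Q : σ → MvPolynomial σ k}
    {q : σ → σ → MvPolynomial σ k} (hq : QD w f Q q) {X : CD.{u} k} {S : KS X w f Q}
    {s : Finset σ} {e : σ → X.A} {T : Tw X} {ê : σ → T.top.A} (h : KTw q S s e T ê) :
    ∀ (D : Dat k σ) (_ : D.w = w) (_ : D.J = ↑s) (π : Cdga.Hom X.C D.cdga)
      (_ : ∀ j, π.f (S.x j) = if j ∈ s then 0 else Dat.xx k j) (_ : ∀ j ∈ s, π.f (e j) = 0),
      ∃ (D' : Dat k σ) (_ : D'.J = Set.univ) (_ : D'.f = D.f) (_ : D'.w = w)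
        (π' : Cdga.Hom T.top.C D'.cdga),
        (∀ j, π'.f (ê j) = 0) ∧ (∀ j, π'.f (T.inc.f (S.x j)) = 0) ∧
        (∀ a, (∀ i, Dat.kpf k i (π.f a) = π.f a) → π'.f (T.inc.f a) = π.f a) ∧
        ∀ m, Qiso π m → Qiso π' m := by
  induction h with
  | done S e =>
    intro D hw hJ π hx he
    refine ⟨D, by rw [hJ]; simp, rfl, hw, π, fun j => he j (mem_univ j), fun j => ?_,
      fun a _ => rfl, fun m hm => hm⟩
    have := hx j
    rw [if_pos (mem_univ j)] at this
    exact this
  | step S s e j hj hmin hl c hc hx hdx T ê h ih =>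
    intro D hw hJ π hπx hπe
    have hQ : D.Q j = 0 := D.Q_min fun l hl' => by
      rw [hJ]
      rw [hw] at hl'
      exact_mod_cast hmin l hl'
    have hπc : π.f c = Dat.xx k j := by
      rw [hc]
      unfold KS.att
      rw [map_add, hπx, if_neg hj, map_mul, map_sum, Finset.sum_eq_zero, mul_zero, add_zero]
      intro i _
      by_cases hi : q j i = 0
      · rw [hi, S.co_zero, mul_zero, map_zero]
      · rw [map_mul, hπe i (hmin i (hq.lt hi)), zero_mul]
    obtain ⟨π₁, h3, h4, h5⟩ := D.step h2 π hQ hl hx hdx hπc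
    obtain ⟨D', hJ', hf', hw', π', h6, h7, h8, h9⟩ := ih (D.kill j) hw (by
        rw [Dat.kill_J, hJ, Finset.coe_insert]) π₁ (by
        intro i
        have h10 : (S.map (CD.inl _ hl hx hdx)).x i = Ex.inl _ (S.x i) := rfl
        rw [h10, h3, hπx]
        by_cases hij : i = j
        · subst hij
          rw [if_neg hj, if_pos (mem_insert_self _ _)]
          refine TrivSqZeroExt.ext ?_ ?_
          · simp [kl_X_self]
          · simp
        · by_cases his : i ∈ s
          · rw [if_pos his, if_pos (mem_insert_of_mem his), map_zero]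
          · rw [if_neg his, if_neg (by simp [hij, his])]
            refine TrivSqZeroExt.ext ?_ ?_
            · simp [kl_X hij]
            · simp) (by
        intro i hi
        rcases mem_insert.1 hi with rfl | hi
        · rw [nxt_self]; exact h4
        · rw [nxt_ne e (ne_of_mem_of_not_mem hi hj), h3, hπe i hi, map_zero])
    refine ⟨D', hJ', hf', hw', π', h6, h7, fun a ha => ?_, fun m hm => h9 m (h5 m hm)⟩
    have h10 : π₁.f (Ex.inl _ a) = π.f a := by rw [h3, ha j]
    have h11 := h8 (Ex.inl _ a) (fun i => by rw [h10]; exact ha i)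
    rw [h10] at h11
    exact h11

end Vale.Agent.P216.V921
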