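import Mathlib
import Vale.Agent.P216.V921.Tow
import Vale.Agent.P216.V651.Pol

/-!
# P216-V (F) ALG-H: the Koszul tower over the piece: final statements

`tower_final`: `T.top → Λ(y)`, `e_j ↦ 0`, `x_j ↦ 0`, `y ↦ y` is a quasi-isomorphism.
`tower_acy`: adjoining an even `b` with `d b = ŷ` (`ŷ ↦ y`) gives an acyclic algebra.
-/

universe u w'

set_option linter.unusedSectionVars false

open Finset
open Vale.Agent.P216.V609
open Vale.Agent.P216.V775
open Vale.Agent.P216.V706 (QIso RelLt Rel Inj0 Acy)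
open Vale.Agent.P216.V651 (pol polMap)

namespace Vale.Agent.P216.V921

section

variable {k : Type*} [Field k] {A A' : Type*} [Ring A] [Algebra k A] [Ring A'] [Algebra k A']
  {S : Cdga k A} {C : Cdga k A'}

theorem relLt_of_qiso {φ : Cdga.Hom S C} {m : ℕ} (h : Qiso φ m) : RelLt φ (m + 1) := by
  refine ⟨fun s hs h0 h1 => ?_, fun i hi a ha s hs had hsd => ?_⟩
  · have h2 : s ∈ S.B 0 := h.inj 0 (Nat.zero_le _) s ⟨hs, h0⟩ h1
    exact h2
  · have h1 : s ∈ S.B (i + 1) := h.inj (i + 1) (by omega) s ⟨hs, hsd⟩ (by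
      rw [← had]; exact d_mem_B ha)
    obtain ⟨t₁, ht₁, h2⟩ := h1
    have h3 : a - φ.f t₁ ∈ C.Z i := ⟨sub_mem ha (φ.deg ht₁), by
      show C.d (a - φ.f t₁) = 0
      rw [map_sub, ← φ.d, h2, had, sub_self]⟩
    obtain ⟨z, hz, h4⟩ := h.surj i (by omega) _ h3
    have hz2 : S.d z = 0 := hz.2
    refine ⟨t₁ + z, add_mem ht₁ hz.1, by rw [map_add, h2, hz2, add_zero], ?_⟩
    rw [map_add, ← sub_sub]
    exact h4

theorem qiso_of_relLt {φ : Cdga.Hom S C} {m : ℕ} (h : RelLt φ (m + 1)) : Qiso φ m := by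
  refine ⟨fun q hq z hz hB => ?_, fun q hq z hz => ?_⟩
  · have hz2 : S.d z = 0 := hz.2
    rcases q with _ | q
    · have h0 : φ.f z = 0 := hB
      have h1 := h.1 z hz.1 hz2 h0
      rw [h1]
      exact zero_mem _
    · obtain ⟨a, ha, h1⟩ := hB
      obtain ⟨t, ht, h2, -⟩ := h.2 q (by omega) a ha z hz.1 h1 hz2
      exact ⟨t, ht, h2⟩
  · have hz2 : C.d z = 0 := hz.2
    obtain ⟨t, ht, h0, h1⟩ := h.2 q (by omega) z hz.1 0 (zero_mem _) (by rw [hz2, map_zero])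
      (map_zero _)
    exact ⟨t, ⟨ht, h0⟩, h1⟩

theorem qIso_of {φ : Cdga.Hom S C} (h : ∀ m, Qiso φ m) : QIso φ :=
  QIso.of_relLt fun n => ⟨(relLt_of_qiso (h n)).1, fun i hi =>
    (relLt_of_qiso (h n)).2 i (by omega)⟩

end

variable {k : Type w'} [Field k] {σ : Type} [Fintype σ] [DecidableEq σ]

/-- the piece as a bundled cdga -/
noncomputable abbrev Dat.cd (D : Dat k σ) : CD.{w'} k := ⟨Dat.Car k σ, D.cdga⟩

/-- **The Koszul tower over the piece is quasi-isomorphic to `Λ(y)`.** -/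
theorem tower_final (D : Dat k σ) (hJ : D.J = ∅) {f : ℕ} {Q : σ → MvPolynomial σ k}
    {q : σ → σ → MvPolynomial σ k} (hq : QD D.w f Q q) {S : KS D.cd D.w f Q}
    (hx : ∀ j, S.x j = Dat.xx k j) {e : σ → D.cd.A} {T : Tw D.cd} {ê : σ → T.top.A}
    (h : KTw q S ∅ e T ê) :
    ∃ (D' : Dat k σ) (_ : D'.J = Set.univ) (_ : D'.f = D.f) (π : Cdga.Hom T.top.C D'.cdga),
      (∀ j, π.f (ê j) = 0) ∧ (∀ j, π.f (T.inc.f (Dat.xx k j)) = 0) ∧
      π.f (T.inc.f (Dat.yy k σ)) = Dat.yy k σ ∧ ∀ m, Qiso π m := by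
  obtain ⟨D', h1, h2, -, π, h3, h4, h5, h6⟩ := kill_tower hq.two hq h D rfl (by simp [hJ])
    (Cdga.Hom.id _) (fun j => by
      rw [if_neg (notMem_empty j)]
      exact hx j) (fun j hj => absurd hj (notMem_empty j))
  refine ⟨D', h1, h2, π, h3, fun j => ?_, ?_, fun m => h6 m (Qiso.id _ m)⟩
  · rw [← hx]; exact h4 j
  · refine h5 (Dat.yy k σ) fun i => ?_
    show Dat.kpf k i (Dat.yy k σ) = Dat.yy k σ
    refine TrivSqZeroExt.ext ?_ ?_
    · simp
    · simp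

/-- positive degrees below and above `|y|` -/
theorem tower_low {D' : Dat k σ} (hJ' : D'.J = Set.univ) {A : Type*} [Ring A] [Algebra k A]
    {C : Cdga k A} {π : Cdga.Hom C D'.cdga} (hπ : ∀ m, Qiso π m) {j : ℕ} (h0 : 0 < j)
    (hj : j ≠ 2 * D'.f + 1) : C.Z j ≤ C.B j :=
  Dat.low_zero hJ' (hπ j) h0 (by omega) hj

/-- **`Λ(y) [b]` and everything above it is acyclic.** -/
theorem tower_acy [CharZero k] {D' : Dat k σ} (hJ' : D'.J = Set.univ) {A : Type*} [Ring A]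
    [Algebra k A] {C : Cdga k A} {π : Cdga.Hom C D'.cdga} (hπ : ∀ m, Qiso π m) {m : ℕ}
    (hm : Even m) (h2 : (2 : k) ≠ 0) (hmf : m = 2 * D'.f) {y : A} (hy : y ∈ C.deg (m + 1))
    (hdy : C.d y = 0) (hπy : π.f y = Dat.yy k σ) (n : ℕ) : Acy (pol C hm h2 hy hdy) n := by
  subst hmf
  have hy' : Dat.yy k σ ∈ D'.cdga.deg (2 * D'.f + 1) := D'.yy_mem
  have hdy' : D'.cdga.d (Dat.yy k σ) = 0 := Dat.univ_d hJ' _
  refine Acy.of_qiso (V651.qiso_pol π hm h2 hy hdy hy' hdy' hπy (qIso_of hπ)) ?_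
  have hf := D'.f_pos
  refine V651.acy_pol D'.cdga (by omega) hm h2 hy' hdy' Dat.yy_ne ?_ ?_ ?_ n
  · intro a ha
    rcases Dat.univ_deg hJ' ha with h | ⟨-, h⟩ | ⟨h, -⟩
    · exact ⟨0, by rw [h, zero_smul]⟩
    · exact h
    · omega
  · intro a ha
    rcases Dat.univ_deg hJ' ha with h | ⟨h, -⟩ | ⟨-, h⟩
    · exact ⟨0, by rw [h, zero_smul]⟩
    · omega
    · exact h
  · intro j hj0 hj a ha
    rcases Dat.univ_deg hJ' ha with h | ⟨h, -⟩ | ⟨h, -⟩
    · exact h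
    · exact absurd h hj0
    · exact absurd h hj

end Vale.Agent.P216.V921
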