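import Vale.Agent.P216.V706.Dga

/-!
# P216-V, V2: termination

If there is no second odd generator in degrees `≤ m`, `m` large, then the cohomology is generated
by one class.
-/

open MvPolynomial

namespace Vale.Agent.P216.V921

open V706

section Alg

variable {k : Type*} [Field k] {σ : Type}

theorem wh_zero_of_lt {w : σ → ℕ} {R : MvPolynomial σ k} {e : ℕ}
    (h : IsWeightedHomogeneous w R e) (he : e ≠ 0) (hw : ∀ j, e < w j) : R = 0 := by
  ext d
  by_contra hd
  rw [coeff_zero] at hd
  have h1 := h hd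
  by_cases h0 : d = 0
  · rw [h0, map_zero] at h1
    exact he h1.symm
  · obtain ⟨j, hj⟩ := Finsupp.ne_iff.1 h0
    have h2 : w j ≤ Finsupp.weight w d := Finsupp.le_weight_of_ne_zero' w hj
    have := hw j
    omega

theorem wh_zero_of_empty [IsEmpty σ] {w : σ → ℕ} {R : MvPolynomial σ k} {e : ℕ}
    (h : IsWeightedHomogeneous w R e) (he : e ≠ 0) : R = 0 :=
  wh_zero_of_lt h he fun j => isEmptyElim j

theorem eq_of_unique {j : σ} (hu : ∀ l, l = j) {w : σ → ℕ} (hw : 1 ≤ w j)
    {R : MvPolynomial σ k} {e : ℕ} (h : IsWeightedHomogeneous w R e) :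
    R = 0 ∨ ∃ (i : ℕ) (c : k), w j * i = e ∧ R = C c * X j ^ i := by
  classical
  by_cases hR : R = 0
  · exact Or.inl hR
  have hs : ∀ d : σ →₀ ℕ, d = Finsupp.single j (d j) := by
    intro d
    ext l
    rw [hu l, Finsupp.single_eq_same]
  have hwt : ∀ d : σ →₀ ℕ, Finsupp.weight w d = w j * d j := by
    intro d
    rw [hs d, Finsupp.weight_single, Finsupp.single_eq_same, smul_eq_mul, mul_comm]
  obtain ⟨d, hd⟩ := ne_zero_iff.1 hR
  refine Or.inr ⟨d j, coeff d R, ?_, ?_⟩
  · rw [← hwt]
    exact h hd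
  · ext d'
    rw [coeff_C_mul, coeff_X_pow]
    by_cases h' : coeff d' R = 0
    · have h3 : Finsupp.single j (d j) ≠ d' := by
        rintro rfl
        rw [← hs d] at h'
        exact hd h'
      rw [h', if_neg h3, mul_zero]
    · have h1 : w j * d' j = w j * d j := by
        rw [← hwt, ← hwt, h h', h hd]
      have h2 : d' j = d j := Nat.eq_of_mul_eq_mul_left hw h1
      have h3 : Finsupp.single j (d j) = d' := by
        rw [← h2, ← hs]
      rw [if_pos h3, mul_one, ← h3, ← hs]

theorem wh_X_pow (w : σ → ℕ) (j : σ) (i : ℕ) :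
    IsWeightedHomogeneous w ((X j : MvPolynomial σ k) ^ i) (w j * i) := by
  have h := (isWeightedHomogeneous_X k w j).pow i
  rwa [smul_eq_mul, mul_comm] at h

theorem der_X_pow {Q : σ → MvPolynomial σ k} {j : σ} (hQ : Q j = 0) (i : ℕ) :
    mkDerivation k Q ((X j : MvPolynomial σ k) ^ i) = 0 := by
  rw [Derivation.leibniz_pow, mkDerivation_X, hQ, smul_zero, smul_zero]

/-- A polynomial without constant term which divides powers of two variables is zero, ... -/
theorem not_dvd_pow {P : MvPolynomial σ k} (h0 : constantCoeff P = 0) {j j' : σ} (hj : j ≠ j')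
    {a b : ℕ} (h1 : P ∣ X j ^ a) (h2 : P ∣ X j' ^ b) : False := by
  classical
  have hX : Prime (X j : MvPolynomial σ k) := X_prime
  obtain ⟨i, -, hi⟩ := (dvd_prime_pow hX a).1 h1
  rcases Nat.eq_zero_or_pos i with rfl | hi0
  · rw [pow_zero, associated_one_iff_isUnit] at hi
    obtain ⟨u, hu⟩ := hi.exists_right_inv
    have := congrArg constantCoeff hu
    rw [map_mul, h0, zero_mul, map_one] at this
    exact zero_ne_one this
  · have h3 : (X j : MvPolynomial σ k) ∣ X j' ^ b :=
      (dvd_pow_self _ hi0.ne').trans (hi.symm.dvd.trans h2)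
    obtain ⟨T, hT⟩ := h3
    have := congrArg (aeval (fun l => if l = j then (0 : k) else 1)) hT
    simp [hj.symm] at this

end Alg

section Dga

variable {k A : Type*} [Field k] [Ring A] [Algebra k A] (D : Dga k A)

theorem d_one : D.d 1 = 0 := by
  have h := D.d_mul 1 1
  rw [mul_one, map_one D.sg, one_mul, mul_one] at h
  simpa using h

theorem d_algebraMap (c : k) : D.d (algebraMap k A c) = 0 := by
  rw [Algebra.algebraMap_eq_smul_one, map_smul, d_one, smul_zero]

theorem d_pow {a : A} (h : D.d a = 0) (i : ℕ) : D.d (a ^ i) = 0 := by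
  induction i with
  | zero => rw [pow_zero, d_one]
  | succ i ih => rw [pow_succ, D.d_mul, ih, h, zero_mul, mul_zero, add_zero]

theorem pow_mem {q : ℕ} {a : A} (h : a ∈ D.deg q) (i : ℕ) : a ^ i ∈ D.deg (q * i) := by
  induction i with
  | zero => rw [pow_zero, mul_zero]; exact D.one_mem
  | succ i ih => rw [pow_succ, Nat.mul_succ]; exact D.mul_mem ih h

theorem pow_mem_Z {q : ℕ} {a : A} (h : a ∈ D.Z q) (i : ℕ) : a ^ i ∈ D.Z (q * i) := by
  rw [D.mem_Z] at h ⊢
  exact ⟨pow_mem D h.1 i, d_pow D h.2 i⟩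

end Dga

section Term

variable {k A : Type*} [Field k] [Ring A] [Algebra k A] {D : Dga k A} {n m : ℕ}

/-- a power in the range of degrees `n < 2 e ≤ m + 1` -/
theorem exists_pow {w : ℕ} (hw : 1 ≤ w) (hm : n * (n + 1) + n + 1 ≤ m) (hwm : 2 * w ≤ m) :
    ∃ i, 1 ≤ i ∧ n < 2 * (w * i) ∧ 2 * (w * i) ≤ m + 1 := by
  by_cases h : n < 2 * w
  · exact ⟨1, le_rfl, by omega, by omega⟩
  · refine ⟨n + 1, by omega, by nlinarith, ?_⟩
    have h1 : 2 * w ≤ n := not_lt.1 h
    have h2 : 2 * (w * (n + 1)) = 2 * w * (n + 1) := by ring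
    rw [h2]
    calc 2 * w * (n + 1) ≤ n * (n + 1) := Nat.mul_le_mul_right _ h1
      _ ≤ m + 1 := by omega

variable (htop : ∀ q, n < q → D.Z q ≤ D.B q) (hm : n * (n + 1) + n + 1 ≤ m) (S : Pre D m)

include htop hm in
/-- If `x_j` is closed, some power of `X_j` is divisible by `P`. -/
theorem dvd_of_closed {j : S.σ} (hQ : S.Q j = 0) : ∃ i, S.P ∣ X j ^ i := by
  obtain ⟨i, -, h2, h3⟩ := exists_pow (n := n) (m := m) (S.w_pos j) hm (S.w_le j)
  have hx : ((S.x j : A)) ∈ D.Z (2 * S.w j) := by
    rw [D.mem_Z]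
    refine ⟨S.x_mem j, ?_⟩
    rw [S.d_x, hQ, map_zero, mul_zero]
  have h4 : ev S.x (X j ^ i) ∈ D.Z (2 * (S.w j * i)) := by
    rw [map_pow, ev_X, ← mul_assoc]
    exact pow_mem_Z D hx i
  obtain ⟨T, hT⟩ := S.injE (S.w j * i) h3 (X j ^ i) (wh_X_pow _ _ _) (der_X_pow hQ i)
    (htop _ h2 h4)
  exact ⟨i, T, hT⟩

include htop hm in
/-- If `P = 0` there is no even generator. -/
theorem empty_of_P (hP : S.P = 0) : IsEmpty S.σ := by
  classical
  by_contra hne
  rw [not_isEmpty_iff] at hne
  obtain ⟨j, -, hj⟩ := Finset.exists_min_image (Finset.univ : Finset S.σ) S.w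
    Finset.univ_nonempty
  have hQ : S.Q j = 0 := by
    by_cases hf : S.w j ≤ S.f
    · exact S.Q_zero j hf
    · refine wh_zero_of_lt (S.Q_hom j) (by omega) fun l => ?_
      have h1 := hj l (Finset.mem_univ l)
      have h2 := S.f_pos
      omega
  obtain ⟨i, hi⟩ := dvd_of_closed htop hm S hQ
  rw [hP, zero_dvd_iff] at hi
  exact pow_ne_zero i (X_ne_zero j) hi

include htop hm in
theorem mono_of_P_zero (h1 : (1 : A) ≠ 0) (hZ0 : ∀ a ∈ D.Z 0, ∃ c : k, a = c • 1)
    (hok : S.Ok) (hP : S.P = 0) : D.Mono := by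
  have hem := empty_of_P htop hm S hP
  have hB0 : (1 : A) ∉ D.B 0 := fun h => h1 (D.mem_B_zero.1 h)
  have heven : ∀ e, 1 ≤ e → 2 * e ≤ m → ∀ z ∈ D.Z (2 * e), z ∈ D.B (2 * e) := by
    intro e he hem' z hz
    obtain ⟨R, hR, -, h⟩ := S.surjE e hem' z hz
    rw [wh_zero_of_empty hR (by omega), map_zero, sub_zero] at h
    exact h
  rcases hok with hr | ⟨hf, -, -, -⟩
  · -- one odd generator
    refine ⟨2 * S.f + 1, 1, S.y, by omega, ?_, ?_, ?_⟩
    · rw [D.mem_Z]
      exact ⟨S.y_mem, by rw [S.d_y, hP, map_zero]⟩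
    · intro j hj
      interval_cases j
      · rw [pow_zero, mul_zero]
        exact hB0
      · rw [pow_one, mul_one]
        intro hy
        obtain ⟨T, -, hT⟩ := S.injO S.f (by omega) le_rfl 1
          (by rw [Nat.sub_self]; exact isWeightedHomogeneous_one k S.w) (by rw [hP, zero_mul])
          (by rw [map_one, mul_one]; exact hy)
        rw [eq_C_of_isEmpty T, ← algebraMap_eq, Derivation.map_algebraMap] at hT
        exact one_ne_zero hT
    · intro q z hz
      by_cases hq : n < q
      · exact Or.inl (htop q hq hz)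
      have hqm : q ≤ m := by omega
      rcases Nat.even_or_odd' q with ⟨e, rfl | rfl⟩
      · rcases Nat.eq_zero_or_pos e with rfl | he
        · obtain ⟨c, hc⟩ := hZ0 z (by simpa using hz)
          refine Or.inr ⟨0, by omega, by omega, c, ?_⟩
          rw [pow_zero, hc, sub_self]
          exact zero_mem _
        · exact Or.inl (heven e he hqm z hz)
      · rcases S.surjO e hqm z hz with h | ⟨hfe, R, hR, -, h⟩
        · exact Or.inl h
        · by_cases hfe' : e = S.f
          · subst hfe'
            refine Or.inr ⟨1, le_rfl, by omega, constantCoeff R, ?_⟩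
            rw [eq_C_of_isEmpty R, ev_C, ← Algebra.commutes, ← Algebra.smul_def] at h
            rw [pow_one]
            exact h
          · left
            rw [wh_zero_of_empty hR (by omega), map_zero, mul_zero, sub_zero] at h
            exact h
  · -- no generator
    refine ⟨1, 0, 0, le_rfl, zero_mem _, ?_, ?_⟩
    · intro j hj
      obtain rfl : j = 0 := by omega
      rw [pow_zero, mul_zero]
      exact hB0
    · intro q z hz
      by_cases hq : n < q
      · exact Or.inl (htop q hq hz)
      have hqm : q ≤ m := by omega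
      rcases Nat.even_or_odd' q with ⟨e, rfl | rfl⟩
      · rcases Nat.eq_zero_or_pos e with rfl | he
        · obtain ⟨c, hc⟩ := hZ0 z (by simpa using hz)
          refine Or.inr ⟨0, le_rfl, by omega, c, ?_⟩
          rw [pow_zero, hc, sub_self]
          exact zero_mem _
        · exact Or.inl (heven e he hqm z hz)
      · rcases S.surjO e hqm z hz with h | ⟨hfe, -⟩
        · exact Or.inl h
        · omega

include htop hm in
theorem mono_of_P_ne (hok : S.Ok) (hP : S.P ≠ 0) : D.Mono := by
  classical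
  have hQ : ∀ j, S.Q j = 0 := S.PQ.resolve_left hP
  have hr : 2 * S.f + 1 ≤ m := by
    rcases hok with h | ⟨-, -, h, -⟩
    · exact h
    · exact absurd h hP
  have hc0 : constantCoeff S.P = 0 := by
    by_contra h
    rw [constantCoeff_eq] at h
    have h2 := S.P_hom h
    rw [map_zero] at h2
    omega
  -- exactly one even generator
  have hne : Nonempty S.σ := by
    by_contra h
    rw [not_nonempty_iff] at h
    exact hP (wh_zero_of_empty S.P_hom (by omega))
  obtain ⟨j⟩ := hne
  have huniq : ∀ l, l = j := by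
    intro l
    by_contra hl
    obtain ⟨a, ha⟩ := dvd_of_closed htop hm S (hQ l)
    obtain ⟨b, hb⟩ := dvd_of_closed htop hm S (hQ j)
    exact not_dvd_pow hc0 hl ha hb
  have hd0 : ∀ (a : k) (b : ℕ), D.d (ev S.x (C a * X j ^ b)) = 0 := by
    intro a b
    rw [map_mul, ev_C, map_pow, ev_X, ← Algebra.smul_def, map_smul, d_pow, smul_zero]
    rw [S.d_x, hQ, map_zero, mul_zero]
  obtain ⟨p, c, hp, hPc⟩ := (eq_of_unique huniq (S.w_pos j) S.P_hom).resolve_left hP
  have hc : c ≠ 0 := by
    rintro rfl
    rw [C_0, zero_mul] at hPc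
    exact hP hPc
  have hw1 := S.w_pos j
  have hp1 : 1 ≤ p := by
    rcases Nat.eq_zero_or_pos p with rfl | h
    · omega
    · exact h
  refine ⟨2 * S.w j, p - 1, S.x j, by omega, ?_, ?_, ?_⟩
  · rw [D.mem_Z]
    exact ⟨S.x_mem j, by rw [S.d_x, hQ, map_zero, mul_zero]⟩
  · intro i hi hB
    have hdeg : 2 * (S.w j * i) ≤ m + 1 := by
      have h2 : S.w j * (i + 1) ≤ S.w j * p := Nat.mul_le_mul_left _ (by omega)
      rw [Nat.mul_succ] at h2
      omega
    obtain ⟨T, hT⟩ := S.injE (S.w j * i) hdeg (X j ^ i) (wh_X_pow _ _ _)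
      (der_X_pow (hQ j) i) (by
        rw [map_pow, ev_X, ← mul_assoc]
        exact hB)
    have h1 : (X j : MvPolynomial S.σ k) ^ p ∣ X j ^ i := by
      rw [hT, hPc]
      exact ((dvd_refl _).mul_left _).mul_right _
    rw [pow_dvd_pow_iff (X_ne_zero j) (X_prime (R := k) (i := j)).not_isUnit] at h1
    omega
  · intro q z hz
    by_cases hq : n < q
    · exact Or.inl (htop q hq hz)
    have hqm : q ≤ m := by omega
    rcases Nat.even_or_odd' q with ⟨e, rfl | rfl⟩
    · obtain ⟨R, hR, -, h⟩ := S.surjE e hqm z hz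
      rcases eq_of_unique huniq hw1 hR with rfl | ⟨i, c', hi, rfl⟩
      · left
        rwa [map_zero, sub_zero] at h
      · by_cases hip : i ≤ p - 1
        · refine Or.inr ⟨i, hip, by rw [mul_assoc, hi], c', ?_⟩
          rw [map_mul, ev_C, map_pow, ev_X, ← Algebra.smul_def] at h
          exact h
        · left
          have hpi : p ≤ i := by omega
          have h2 : ev S.x (C c' * X j ^ i) ∈ D.B (2 * e) := by
            have e1 : (C c' * X j ^ i : MvPolynomial S.σ k) =
                S.P * (C (c' / c) * X j ^ (i - p)) := by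
              rw [hPc]
              have e2 : (C c' : MvPolynomial S.σ k) = C c * C (c' / c) := by
                rw [← C_mul, mul_div_cancel₀ _ hc]
              have e3 : (X j : MvPolynomial S.σ k) ^ i = X j ^ p * X j ^ (i - p) := by
                rw [← pow_add, Nat.add_sub_cancel' hpi]
              rw [e2, e3]
              ring
            have e4 : S.w j * (i - p) + S.w j * p = S.w j * i := by
              rw [← Nat.mul_add, Nat.sub_add_cancel hpi]
            have e5 : 2 * e = (2 * S.f + 1 + 2 * S.w j * (i - p)) + 1 := by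
              rw [mul_assoc]
              omega
            rw [e5, D.mem_B_succ]
            refine ⟨S.y * ev S.x (C (c' / c) * X j ^ (i - p)), D.mul_mem S.y_mem ?_, ?_⟩
            · rw [map_mul, ev_C, map_pow, ev_X, ← Algebra.smul_def]
              exact Submodule.smul_mem _ _ (pow_mem D (S.x_mem j) _)
            · rw [D.d_mul, hd0, mul_zero, add_zero, S.d_y, ← map_mul, ← e1]
          have h3 := add_mem h h2
          rwa [sub_add_cancel] at h3
    · rcases S.surjO e hqm z hz with h | ⟨-, R, -, hPR, h⟩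
      · exact Or.inl h
      · left
        rw [(mul_eq_zero.1 hPR).resolve_left hP, map_zero, mul_zero, sub_zero] at h
        exact h

end Term

/-- **Termination.** -/
theorem termination : Termination := by
  intro k A _ _ _ _ D n h1 hZ0 htop m hm S hok
  by_cases hP : S.P = 0
  · exact mono_of_P_zero htop hm S h1 hZ0 hok hP
  · exact mono_of_P_ne htop hm S hok hP

end Vale.Agent.P216.V921
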