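import Vale.Agent.P216.V921.ColPol
import Vale.Agent.P216.V706.B1.Final

/-!
# P216-V, F-BASE: the base at fixed scales, from the germs

`IsCol` for the cdgas `C i → GC`: closed of degree `0 < j ≤ e` at a scale is exact at a smaller
scale, closed of degree `0` is constant at a smaller scale, `η` is exact at no scale; the same for
`C i [b]`, from `D4`.
-/

set_option linter.unusedSectionVars false

open Polynomial

namespace Vale.Agent.P216.V921

open V609 V670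

variable {k : Type*} [Field k] {ι : Type*} [Preorder ι] {W : ι → Type*} [∀ i, Ring (W i)]
  [∀ i, Algebra k (W i)] {C : ∀ i, Cdga k (W i)} {r : ∀ i j, i ≤ j → Cdga.Hom (C i) (C j)}
  {G : Type*} [Ring G] [Algebra k G] {GC : Cdga k G} {γ : ∀ i, Cdga.Hom (C i) GC}

section

variable (H : IsCol (fun i => (C i).toN) (fun i j h => (r i j h).toN) GC.toN
  fun i => (γ i).toN)

include H

/-- `Bex` -/
theorem col_bex (rr : ∀ i j l h h' w, (r j l h').f ((r i j h).f w) = (r i l (h.trans h')).f w)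
    {e : ℕ} (hlow : ∀ j, 0 < j → j < e + 1 → GC.Z j ≤ GC.B j) :
    ∀ i m, m < e → ∀ x ∈ (C i).deg (m + 1), (C i).d x = 0 →
      ∃ j, ∃ h : i ≤ j, ∃ y ∈ (C j).deg m, (C j).d y = (r i j h).f x := by
  intro i m hm x hx hdx
  have h1 : (γ i).toN.f x ∈ GC.toN.B (m + 1) :=
    hlow (m + 1) (Nat.succ_pos _) (by omega) ((γ i).map_Z ⟨hx, hdx⟩)
  obtain ⟨j, h, y, hy, h3⟩ := H.mem_B rr h1
  exact ⟨j, h, y, hy, h3⟩

/-- `Bz` -/
theorem col_bz (hz : ∀ z ∈ GC.Z 0, ∃ c : k, z = c • 1) :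
    ∀ i, ∀ x ∈ (C i).deg 0, (C i).d x = 0 →
      ∃ j, ∃ h : i ≤ j, ∃ c : k, (r i j h).f x = algebraMap k (W j) c := by
  intro i x hx hdx
  obtain ⟨c, hc⟩ := hz _ ((γ i).map_Z ⟨hx, hdx⟩)
  obtain ⟨j, h, h1⟩ := H.eq_zero (i := i) (w := x - c • 1) (by
    show (γ i).f (x - c • 1) = 0
    rw [map_sub, hc, map_smul, map_one, sub_self])
  refine ⟨j, h, c, ?_⟩
  have h3 : (r i j h).f (x - c • 1) = 0 := h1
  rw [map_sub, map_smul, map_one, sub_eq_zero] at h3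
  rw [h3, Algebra.algebraMap_eq_smul_one]

omit H

/-- `ne` -/
theorem col_ne {e : ℕ} {η : ∀ i, W i} {ηG : G} (hη : ∀ i, (γ i).f (η i) = ηG)
    (hne : ηG ∉ GC.B (e + 1)) : ∀ i, ∀ b ∈ (C i).deg e, (C i).d b ≠ η i := by
  intro i b hb h
  refine hne ⟨(γ i).f b, (γ i).deg hb, ?_⟩
  show GC.d ((γ i).f b) = ηG
  rw [← (γ i).d, h, hη]

end

/-- the base with `b`, from `D4` -/
theorem col_pol (H : IsCol (fun i => (C i).toN) (fun i j h => (r i j h).toN) GC.toN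
      fun i => (γ i).toN)
    (rr : ∀ i j l h h' w, (r j l h').f ((r i j h).f w) = (r i l (h.trans h')).f w)
    (h2 : (2 : k) ≠ 0) {f f₂ : ℕ} {c₁ c₂ : G} (D : V706.D4 GC h2 f f₂ c₁ c₂)
    {y₁ y₂ : ∀ i, W i} (hy : ∀ i, y₁ i ∈ (C i).deg (2 * f + 1)) (hdy : ∀ i, (C i).d (y₁ i) = 0)
    (hr : ∀ i j h, (r i j h).f (y₁ i) = y₁ j) (hγ : ∀ i, (γ i).f (y₁ i) = c₁)
    (hγ' : ∀ i, (γ i).f (y₂ i) = c₂) :
    (∀ i m, m < 2 * f₂ → ∀ x ∈ (V651.pol (C i) (even_two_mul f) h2 (hy i) (hdy i)).deg (m + 1),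
      (V651.pol (C i) (even_two_mul f) h2 (hy i) (hdy i)).d x = 0 →
      ∃ j, ∃ h : i ≤ j, ∃ y ∈ (V651.pol (C j) (even_two_mul f) h2 (hy j) (hdy j)).deg m,
        (V651.pol (C j) (even_two_mul f) h2 (hy j) (hdy j)).d y =
          (V651.polMap (r i j h) (even_two_mul f) h2 (hy i) (hdy i) (hy j) (hdy j)
            (hr i j h)).f x) ∧
    (∀ i, ∀ x ∈ (V651.pol (C i) (even_two_mul f) h2 (hy i) (hdy i)).deg 0,
      (V651.pol (C i) (even_two_mul f) h2 (hy i) (hdy i)).d x = 0 →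
      ∃ j, ∃ h : i ≤ j, ∃ c : k,
        (V651.polMap (r i j h) (even_two_mul f) h2 (hy i) (hdy i) (hy j) (hdy j)
            (hr i j h)).f x = algebraMap k (W j)[X] c) ∧
    (∀ i, ∀ b ∈ (V651.pol (C i) (even_two_mul f) h2 (hy i) (hdy i)).deg (2 * f₂),
      (V651.pol (C i) (even_two_mul f) h2 (hy i) (hdy i)).d b ≠ Polynomial.C (y₂ i)) := by
  have H' := isCol_pol H rr (even_two_mul f) h2 hy hdy D.mem₁ D.d₁ hr hγ
  have rr' := V670.IsCol.pol_rr (D := fun i => (C i).toN) (r := fun i j h => (r i j h).toN) rr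
    (even_two_mul f) h2 hy hdy (fun i => toN_central (C i) (even_two_mul f) (hy i)) hr
  refine ⟨col_bex H' rr' D.low', col_bz H' D.zero', ?_⟩
  refine col_ne (C := fun i => V651.pol (C i) (even_two_mul f) h2 (hy i) (hdy i))
    (γ := fun i => V651.polMap (γ i) (even_two_mul f) h2 (hy i) (hdy i) D.mem₁ D.d₁ (hγ i))
    (ηG := Polynomial.C c₂) (fun i => ?_) D.not₂
  rw [V651.polMap_apply, coe_mapAlgHom, map_C]
  show Polynomial.C ((γ i).f (y₂ i)) = _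
  rw [hγ']

end Vale.Agent.P216.V921
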